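import Vale.Agent.P216CP.Exp

/-!
# P216CP/Stm: the statements of the comparison geometry block
-/

open scoped Manifold ContDiff Topology ENNReal
open Set Filter MeasureTheory
open Vale.Agent.P216R

noncomputable section

namespace Vale.Agent.P216CP

/-- the solution of `y'' = k ^ 2 y`, `y 0 = 0`, `y' 0 = 1` -/
def sn (k t : ℝ) : ℝ := if k = 0 then t else Real.sinh (k * t) / k

/-- `sn' / sn` -/
def ct (k t : ℝ) : ℝ := Real.cosh (k * t) / sn k t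

variable {E : Type} [NormedAddCommGroup E] [NormedSpace ℝ E]

/-- `f` is a smooth upper support function at `y` of the distance from `a` -/
structure Sup {M : Type} [TopologicalSpace M] [ChartedSpace E M] (g : Ten E M) (U : Set M)
    (a y : M) (f : M → ℝ) : Prop where
  smooth : ContMDiffAt 𝓘(ℝ, E) 𝓘(ℝ, ℝ) ∞ f y
  nonneg : 0 ≤ f y
  eq : ed g U a y = ENNReal.ofReal (f y)
  le : ∀ᶠ z in 𝓝 y, ed g U a z ≤ ENNReal.ofReal (f z)

variable (E) [FiniteDimensional ℝ E]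

/-- Hessian comparison in the support sense -/
def SUPH : Prop :=
  ∀ (M : Type) [TopologicalSpace M] [ChartedSpace E M] [IsManifold 𝓘(ℝ, E) ∞ M]
    (g : Ten E M) (U : Set M) (γ : ℝ → M) (L k : ℝ), Met g U → Hs U → MinGeo g U γ L → 0 < L →
    0 ≤ k → (∀ t ∈ Icc 0 L, SecGe g (γ t) (-k ^ 2)) →
    ∃ f, Sup g U (γ 0) (γ L) f ∧ grad g f (γ L) = vel E γ L ∧
      ∀ v, hess g f (γ L) v v ≤ ct k L * (g (γ L) v v - g (γ L) v (vel E γ L) ^ 2)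

/-- Laplace comparison in the support sense -/
def SUPL : Prop :=
  ∀ (M : Type) [TopologicalSpace M] [ChartedSpace E M] [IsManifold 𝓘(ℝ, E) ∞ M]
    (g : Ten E M) (U : Set M) (γ : ℝ → M) (L k : ℝ), Met g U → Hs U → MinGeo g U γ L → 0 < L →
    0 ≤ k → (∀ t ∈ Icc 0 L,
      -((Module.finrank ℝ E : ℝ) - 1) * k ^ 2 ≤ Ric g (γ t) (vel E γ t) (vel E γ t)) →
    ∃ f, Sup g U (γ 0) (γ L) f ∧ grad g f (γ L) = vel E γ L ∧
      lap g f (γ L) ≤ ((Module.finrank ℝ E : ℝ) - 1) * ct k L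

/-- local Hopf-Rinow -/
def HR : Prop :=
  ∀ (M : Type) [TopologicalSpace M] [ChartedSpace E M] [IsManifold 𝓘(ℝ, E) ∞ M]
    (g : Ten E M) (U : Set M) (x y : M) (R : ℝ), Met g U → Hs U → Cpt g U x R →
    y ∈ bl g U x R → ∃ γ, MinGeo g U γ (dd g U x y) ∧ γ 0 = x ∧ γ (dd g U x y) = y

/-- Toponogov, `sec ≥ 0`: concavity along every unit speed geodesic, and the hinge inequality -/
def TOP0 : Prop :=
  ∀ (M : Type) [TopologicalSpace M] [ChartedSpace E M] [IsManifold 𝓘(ℝ, E) ∞ M]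
    (g : Ten E M) (U : Set M) (a : M) (R : ℝ) (σ : ℝ → M) (s : Set ℝ), Met g U → Hs U →
    Cpt g U a R → (∀ y ∈ bl g U a R, SecGe g y 0) → IsOpen s → s.OrdConnected →
    IsGeo g U σ s → (∀ t ∈ s, spd g σ t = 1) → (∀ t ∈ s, σ t ∈ bl g U a R) →
    ConcaveOn ℝ s (fun t => dd g U a (σ t) ^ 2 - t ^ 2) ∧
    ∀ γ A, MinGeo g U γ A → γ A = a → (0 : ℝ) ∈ s → γ 0 = σ 0 → ∀ t ∈ s, 0 ≤ t →
      dd g U a (σ t) ^ 2 ≤ A ^ 2 + t ^ 2 - 2 * A * t * g (σ 0) (vel E γ 0) (vel E σ 0)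

/-- Toponogov, `sec ≥ -k ^ 2` -/
def TOP1 : Prop :=
  ∀ (M : Type) [TopologicalSpace M] [ChartedSpace E M] [IsManifold 𝓘(ℝ, E) ∞ M]
    (g : Ten E M) (U : Set M) (a : M) (R k : ℝ) (σ : ℝ → M) (s : Set ℝ), Met g U → Hs U →
    Cpt g U a R → 0 < k → (∀ y ∈ bl g U a R, SecGe g y (-k ^ 2)) → IsOpen s → s.OrdConnected →
    IsGeo g U σ s → (∀ t ∈ s, spd g σ t = 1) → (∀ t ∈ s, σ t ∈ bl g U a R) →
    (∀ t₁ ∈ s, ∀ t₂ ∈ s, ∀ t ∈ Icc t₁ t₂,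
      Real.sinh (k * (t₂ - t)) * Real.cosh (k * dd g U a (σ t₁))
        + Real.sinh (k * (t - t₁)) * Real.cosh (k * dd g U a (σ t₂))
        ≤ Real.sinh (k * (t₂ - t₁)) * Real.cosh (k * dd g U a (σ t))) ∧
    ∀ γ A, MinGeo g U γ A → γ A = a → (0 : ℝ) ∈ s → γ 0 = σ 0 → ∀ t ∈ s, 0 ≤ t →
      Real.cosh (k * dd g U a (σ t)) ≤ Real.cosh (k * A) * Real.cosh (k * t)
        - Real.sinh (k * A) * Real.sinh (k * t) * g (σ 0) (vel E γ 0) (vel E σ 0)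

/-- the splitting theorem for `sec ≥ 0` -/
def SPLIT : Prop :=
  ∀ (M : Type) [TopologicalSpace M] [ChartedSpace E M] [IsManifold 𝓘(ℝ, E) ∞ M]
    (g : Ten E M) (U : Set M) (γ : ℝ → M), Met g U → Hs U → IsPreconnected U → Cpl g U →
    (∀ y ∈ U, SecGe g y 0) → (∀ s t, ed g U (γ s) (γ t) = ENNReal.ofReal |s - t|) →
    ∃ b : M → ℝ, ContMDiffOn 𝓘(ℝ, E) 𝓘(ℝ, ℝ) ∞ b U ∧ (∀ x ∈ U, hess g b x = 0) ∧
      (∀ x ∈ U, gam g b b x = 1) ∧ (∀ t, b (γ t) = t) ∧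
      ∀ x ∈ U, ∀ t, dd g U x (γ t) ^ 2 = t ^ 2 - 2 * t * b x + dd g U x (γ 0) ^ 2

variable [MeasurableSpace E] [BorelSpace E]

/-- measure contraction from a Laplacian bound `m` for the distance from `x` -/
def MCP : Prop :=
  ∀ (M : Type) [TopologicalSpace M] [ChartedSpace E M] [IsManifold 𝓘(ℝ, E) ∞ M]
    [MeasurableSpace M] [BorelSpace M] (g : Ten E M) (U : Set M) (x : M) (R lam c : ℝ)
    (m : ℝ → ℝ) (A A' : Set M), Met g U → Hs U → Cpt g U x R → 0 < lam → lam ≤ 1 → 0 ≤ c →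
    ContinuousOn m (Ioo 0 R) → A ⊆ bl g U x R → MeasurableSet A →
    (∀ γ L, MinGeo g U γ L → γ 0 = x → γ L ∈ A → γ (lam * L) ∈ A' ∧ ∀ t ∈ Ico (lam * L) L, 0 < t →
      ∃ f, Sup g U x (γ t) f ∧ lap g f (γ t) ≤ m t) →
    (∀ y ∈ A, y ≠ x → c ≤ lam * Real.exp (-∫ t in lam * dd g U x y..dd g U x y, m t)) →
    ENNReal.ofReal c * vol g (A \ {x}) ≤ vol g A'

/-- Bishop-Gromov: contraction by `lam` towards `x`, and the volume of balls -/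
def BG : Prop :=
  ∀ (M : Type) [TopologicalSpace M] [ChartedSpace E M] [IsManifold 𝓘(ℝ, E) ∞ M]
    [MeasurableSpace M] [BorelSpace M] (g : Ten E M) (U : Set M) (x : M) (R k : ℝ),
    Met g U → Hs U → Cpt g U x R → 0 < R → 0 ≤ k → 0 < Module.finrank ℝ E →
    (∀ y ∈ bl g U x R, ∀ v, -((Module.finrank ℝ E : ℝ) - 1) * k ^ 2 * g y v v ≤ Ric g y v v) →
    (∀ (lam : ℝ) (A A' : Set M), 0 < lam → lam ≤ 1 → A ⊆ bl g U x R → MeasurableSet A →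
      (∀ γ L, MinGeo g U γ L → γ 0 = x → γ L ∈ A → γ (lam * L) ∈ A') →
      ENNReal.ofReal (lam * (sn k (lam * R) / sn k R) ^ (Module.finrank ℝ E - 1)) * vol g A
        ≤ vol g A') ∧
    (∀ r, 0 < r → r ≤ R →
      ENNReal.ofReal (r / R * (sn k r / sn k R) ^ (Module.finrank ℝ E - 1)) * vol g (bl g U x R)
        ≤ vol g (bl g U x r)) ∧
    vol g (bl g U x R) ≤ ENNReal.ofReal (R * sn k R ^ (Module.finrank ℝ E - 1)) *
      volume (Metric.ball (0 : EuclideanSpace ℝ (Fin (Module.finrank ℝ E))) 1)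

end Vale.Agent.P216CP
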