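import Vale.Agent.P216CP.Exp
import Vale.Agent.P216B.Mid

/-!
# P216CP/NB: geodesics and the distance, normal balls, no corners
-/

open scoped Manifold ContDiff Topology ENNReal
open Set Filter
open Vale.Agent.P219.RG Vale.Agent.P216R

noncomputable section

set_option maxSynthPendingDepth 3

namespace Vale.Agent.P216CP

variable {E : Type} [NormedAddCommGroup E] [NormedSpace ℝ E]

/-- the open ball of radius `r` of the form `B` -/
def tb (B : Bil E) (r : ℝ) : Set E := {v | √(B v v) < r}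

theorem continuous_form (B : Bil E) : Continuous fun v : E => B v v :=
  (B.continuous.clm_apply continuous_id)

theorem isOpen_tb (B : Bil E) (r : ℝ) : IsOpen (tb B r) :=
  isOpen_lt (continuous_form B).sqrt continuous_const

theorem zero_mem_tb (B : Bil E) {r : ℝ} (hr : 0 < r) : (0 : E) ∈ tb B r := by
  simpa [tb] using hr

theorem isCompact_ctb [FiniteDimensional ℝ E] {B : Bil E} (hp : ∀ v, v ≠ 0 → 0 < B v v) (r : ℝ) :
    IsCompact {v | √(B v v) ≤ r} :=
  (isCompact_form B hp (r ^ 2)).of_isClosed_subset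
    (isClosed_le (continuous_form B).sqrt continuous_const) fun v hv => by
      have h1 : √(B v v) ≤ r := hv
      have h2 := Real.sq_sqrt (nonneg_of_pos hp v)
      have h3 := Real.sqrt_nonneg (B v v)
      change B v v ≤ r ^ 2
      nlinarith

theorem exists_coer [FiniteDimensional ℝ E] {B : Bil E} (hs : ∀ v w, B v w = B w v)
    (hp : ∀ v, v ≠ 0 → 0 < B v v) : ∃ c > 0, ∀ w, c * ‖w‖ ^ 2 ≤ B w w := by
  have h : IsMetricOn (fun _ : E => B) univ :=
    ⟨isOpen_univ, contDiffOn_const, fun _ _ => hs, fun _ _ => hp⟩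
  obtain ⟨c, hc, h1⟩ := h.lower_bound (mem_univ 0)
  exact ⟨c, hc, h1.self_of_nhds⟩

theorem exists_tb_subset [FiniteDimensional ℝ E] {B : Bil E} (hs : ∀ v w, B v w = B w v)
    (hp : ∀ v, v ≠ 0 → 0 < B v v) {N : Set E} (hN : N ∈ 𝓝 (0 : E)) : ∃ r > 0, tb B r ⊆ N := by
  obtain ⟨c, hc, h1⟩ := exists_coer hs hp
  obtain ⟨ε, hε, h2⟩ := Metric.mem_nhds_iff.1 hN
  refine ⟨√c * ε, by positivity, fun v hv => h2 ?_⟩
  rw [mem_ball_zero_iff]
  have h3 : √c * ‖v‖ ≤ √(B v v) := by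
    rw [← Real.sqrt_sq (norm_nonneg v), ← Real.sqrt_mul hc.le]
    exact Real.sqrt_le_sqrt (h1 v)
  exact lt_of_mul_lt_mul_left (h3.trans_lt hv) (Real.sqrt_nonneg c)

theorem ev_form [FiniteDimensional ℝ E] {B : Bil E} (hs : ∀ v w, B v w = B w v)
    (hp : ∀ v, v ≠ 0 → 0 < B v v) {X : Type} [TopologicalSpace X] {G : X → Bil E} {y : X}
    (hG : ContinuousAt G y) {δ : ℝ} (hδ : 0 < δ) :
    ∀ᶠ z in 𝓝 y, ∀ w, |G z w w - G y w w| ≤ δ * B w w := by
  obtain ⟨c, hc, h1⟩ := exists_coer hs hp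
  filter_upwards [Metric.tendsto_nhds.1 hG (δ * c) (by positivity)] with z hz w
  rw [dist_eq_norm] at hz
  calc |G z w w - G y w w| = ‖(G z - G y) w w‖ := by simp only [sub_apply, Real.norm_eq_abs]
    _ ≤ ‖G z - G y‖ * ‖w‖ * ‖w‖ := (G z - G y).le_opNorm₂ w w
    _ ≤ δ * c * ‖w‖ * ‖w‖ := by gcongr
    _ = δ * (c * ‖w‖ ^ 2) := by ring
    _ ≤ δ * B w w := by gcongr; exact h1 w

theorem abs_cs {B : Bil E} (hs : ∀ v w, B v w = B w v) (hn : ∀ v, 0 ≤ B v v) (v w : E) :
    |B v w| ≤ √(B v v) * √(B w w) := by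
  refine abs_le.2 ⟨?_, cs_form B hs hn v w⟩
  have := cs_form B hs hn (-v) w
  simp only [map_neg, neg_apply, neg_neg] at this
  linarith

variable {M : Type} [TopologicalSpace M] [ChartedSpace E M]
variable {g : Ten E M} {U : Set M} {γ : ℝ → M} {s : Set ℝ} {t a b r : ℝ} {p x y z : M} {v w : E}

/-- `expo g U p` is a diffeomorphism on the tangent ball of radius `r` -/
structure Nb (g : Ten E M) (U : Set M) (p : M) (r : ℝ) : Prop where
  pos : 0 < r
  sub : tb (g p) r ⊆ Dom g U p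
  ld : LD E (expo g U p) (tb (g p) r)
  inj : InjOn (expo g U p) (tb (g p) r)

theorem Nb.mono (h : Nb g U p r) {r' : ℝ} (h0 : 0 < r') (hr : r' ≤ r) : Nb g U p r' := by
  have hs : tb (g p) r' ⊆ tb (g p) r := fun v hv => lt_of_lt_of_le hv hr
  exact ⟨h0, hs.trans h.sub, h.ld.mono (isOpen_tb _ _) hs, h.inj.mono hs⟩

theorem Nb.mem (h : Nb g U p r) : p ∈ U := mem_of_Life (h.sub (zero_mem_tb _ h.pos))

variable [FiniteDimensional ℝ E] [IsManifold 𝓘(ℝ, E) ∞ M]

theorem contMDiffAt_ray (hg : Met g U) (hH : Hs U) (ht : t ∈ Life g U p v) :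
    ContMDiffAt 𝓘(ℝ, ℝ) 𝓘(ℝ, E) ∞ (ray g U p v) t :=
  contMDiffAt_of_chart ((isGeo_ray hg hH).contAt isOpen_Life ht)
    (ContDiffAt.comp (g := fun q : ℝ × E => stt (E := E) (ray g U p q.2) (ray g U p v t) q.1)
      (f := fun τ : ℝ => (τ, v)) t (contDiffAt_stt_ray hg hH ht (mem_chart_source E _))
      (contDiffAt_id.prodMk contDiffAt_const)).fst

/-- geodesics are smooth -/
theorem IsGeo.contMDiffAt (hg : Met g U) (hH : Hs U) (h : IsGeo g U γ s) (hs : IsOpen s)
    (ht : t ∈ s) : ContMDiffAt 𝓘(ℝ, ℝ) 𝓘(ℝ, E) ∞ γ t := by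
  obtain ⟨l, u, htl, hsub⟩ := mem_nhds_iff_exists_Ioo_subset.1 (hs.mem_nhds ht)
  have h1 : ContMDiffAt 𝓘(ℝ, ℝ) 𝓘(ℝ, E) ∞ (ray g U (γ t) (dv γ t)) (t - t) := by
    rw [sub_self]; exact contMDiffAt_ray hg hH (zero_mem_Life hg (h.mem t ht) _)
  have h2 : ContMDiffAt 𝓘(ℝ, ℝ) 𝓘(ℝ, ℝ) ∞ (fun τ : ℝ => τ - t) t :=
    (contDiffAt_id.sub contDiffAt_const).contMDiffAt
  refine (ContMDiffAt.comp (f := fun τ : ℝ => τ - t) t h1 h2).congr_of_eventuallyEq ?_
  filter_upwards [isOpen_Ioo.mem_nhds htl] with τ hτ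
  have := ((h.mono hsub).eq_ray hg hH isOpen_Ioo ordConnected_Ioo htl (t := τ - t)
    (by rwa [sub_add_cancel])).2
  rw [sub_add_cancel] at this
  exact this.symm

theorem IsGeo.crv (hg : Met g U) (hH : Hs U) (h : IsGeo g U γ s) (hs : IsOpen s) (hab : a ≤ b)
    (hI : Icc a b ⊆ s) : Crv E U γ a b :=
  ⟨hab, fun _ ht => ((h.contMDiffAt hg hH hs (hI ht)).of_le
    (by exact_mod_cast le_top)).contMDiffWithinAt, fun t ht => h.mem t (hI ht)⟩

theorem IsGeo.ed_le (hg : Met g U) (hH : Hs U) (h : IsGeo g U γ s) (hs : IsOpen s)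
    (ho : s.OrdConnected) (ha : a ∈ s) (hb : b ∈ s) (ht : t ∈ s) :
    ed g U (γ a) (γ b) ≤ ENNReal.ofReal (|a - b| * √(sp g γ t)) := by
  wlog hab : a ≤ b generalizing a b
  · rw [ed_comm, abs_sub_comm]; exact this hb ha (not_le.1 hab).le
  have hI := ho.out ha hb
  refine (ed_le_len (g := g) (h.crv hg hH hs hab hI)).trans ?_
  rw [abs_sub_comm, abs_of_nonneg (sub_nonneg.2 hab), mul_comm,
    ENNReal.ofReal_mul (Real.sqrt_nonneg _)]
  refine len_le_const fun τ hτ => ?_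
  have h1 := hI (Ioo_subset_Icc_self hτ)
  rw [h.spd_eq hs h1, h.sp_const hg hs ho.isPreconnected h1 ht]

theorem ed_ray_le (hg : Met g U) (hH : Hs U) (ha : a ∈ Life g U p v) (hb : b ∈ Life g U p v) :
    ed g U (ray g U p v a) (ray g U p v b) ≤ ENNReal.ofReal (|a - b| * √(g p v v)) := by
  have := (isGeo_ray hg hH).ed_le hg hH isOpen_Life ordConnected_Life ha hb ha
  rwa [sp_ray hg hH ha] at this

theorem ed_ray_le' (hg : Met g U) (hH : Hs U) (ha : a ∈ Life g U p v) :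
    ed g U p (ray g U p v a) ≤ ENNReal.ofReal (|a| * √(g p v v)) := by
  have := ed_ray_le hg hH (zero_mem_Tm_of ha) ha
  rwa [ray_zero hg hH, zero_sub, abs_neg] at this

theorem ed_expo_le (hg : Met g U) (hH : Hs U) (hv : v ∈ Dom g U p) :
    ed g U p (expo g U p v) ≤ ENNReal.ofReal √(g p v v) := by
  have := ed_ray_le' hg hH hv
  rwa [abs_one, one_mul] at this

theorem spd_ray (hg : Met g U) (hH : Hs U) (ht : t ∈ Life g U p v) :
    spd g (ray g U p v) t = √(g p v v) := by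
  rw [(isGeo_ray hg hH).spd_eq isOpen_Life ht, sp_ray hg hH ht]

theorem vel_ray_zero (hg : Met g U) (hH : Hs U) (hp : p ∈ U) : vel E (ray g U p v) 0 = v := by
  rw [(isGeo_ray hg hH).vel_eq isOpen_Life (zero_mem_Life hg hp v), dv_ray_zero hg hH hp]

/-- geodesics exist as long as the closed balls are compact -/
theorem mem_Life_of_cpt (hg : Met g U) (hH : Hs U) {R : ℝ} (hc : Cpt g U p R) (hp : p ∈ U)
    (h : |t| * √(g p v v) < R) : t ∈ Life g U p v := by
  wlog ht : 0 ≤ t generalizing t v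
  · have h1 := this (t := -t) (v := (-1 : ℝ) • v) (by simpa using h) (by linarith)
    simpa using (mem_Life_smul hg hH).1 h1
  refine mem_Tm_of_compact hg hH (hc _ h) (fun z hz => (mem_of_ed_ne
    (ne_top_of_le_ne_top ENNReal.ofReal_ne_top hz)).2) (self_mem_dom hp) ht fun τ hτ hτ' => ?_
  refine (ed_ray_le' hg hH hτ').trans (ENNReal.ofReal_le_ofReal ?_)
  rw [abs_of_nonneg ht, abs_of_nonneg hτ.1]
  exact mul_le_mul_of_nonneg_right hτ.2.le (Real.sqrt_nonneg _)

theorem tb_subset_Dom (hg : Met g U) (hH : Hs U) {R : ℝ} (hc : Cpt g U p R) (hp : p ∈ U) :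
    tb (g p) R ⊆ Dom g U p := fun _ hv =>
  mem_Life_of_cpt hg hH hc hp (by rw [abs_one, one_mul]; exact hv)

/-- two point estimate in a smooth parametrisation -/
theorem ed_le_near (hg : Met g U) {ψ : E → M} {O : Set E} (hO : IsOpen O)
    (hψ : ContMDiffOn 𝓘(ℝ, E) 𝓘(ℝ, E) ∞ ψ O) (hm : MapsTo ψ O U) (hv : v ∈ O) {B : Bil E}
    (hs : ∀ v w, B v w = B w v) (hp : ∀ v, v ≠ 0 → 0 < B v v)
    (hB : ∀ w, P216R.comap ψ g v w w ≤ B w w) {C : ℝ} (hC : 1 < C) :
    ∃ ε > 0, ∀ a ∈ Metric.ball v ε, ∀ b ∈ Metric.ball v ε,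
      ed g U (ψ a) (ψ b) ≤ ENNReal.ofReal (C * √(B (a - b) (a - b))) := by
  have h1 := ev_form hs hp (hg.contDiffAt (hψ.contMDiffAt (hO.mem_nhds hv)) (hm hv)).continuousAt
    (δ := C ^ 2 - 1) (by nlinarith)
  obtain ⟨ε, hε, h2⟩ := Metric.mem_nhds_iff.1 (inter_mem (hO.mem_nhds hv) h1)
  refine ⟨ε, hε, fun a ha b hb => ?_⟩
  have h3 := ed_map_le (g := g) (h := P216R.comap ψ g) Metric.isOpen_ball
    ((hψ.mono fun z hz => (h2 hz).1).of_le (by exact_mod_cast le_top))
    (fun z hz => hm (h2 hz).1) one_pos (fun _ _ _ => by simp) a b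
  rw [ENNReal.ofReal_one, one_mul] at h3
  refine h3.trans (ed_le_form (convex_ball v ε) ha hb (by linarith) fun u hu w => ?_)
  have h4 := (abs_le.1 ((h2 hu).2 w)).2
  have h5 := hB w
  nlinarith

theorem tendsto_ed (hg : Met g U) (hx : x ∈ U) : Tendsto (ed g U x) (𝓝 x) (𝓝 0) := by
  obtain ⟨ε, hε, h⟩ := ed_le_near hg (isOpen_dom x hg.isOpen)
    ((ld_symm x).smooth.mono inter_subset_left) (fun _ hz => hz.2) (pt_mem_dom hx)
    (hg.symm x hx) (hg.pos x hx) (fun w => (congrArg (fun B : Bil E => B w w) (co_pt g x)).le)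
    one_lt_two
  have hs := mem_chart_source E x
  have hc : Tendsto (chartAt E x) (𝓝 x) (𝓝 (pt E x)) := (chartAt E x).continuousAt hs
  have h1 : Tendsto (fun z => ENNReal.ofReal (2 * √(g x (pt E x - chartAt E x z)
      (pt E x - chartAt E x z)))) (𝓝 x) (𝓝 0) := by
    have h2 : Continuous fun u : E => ENNReal.ofReal (2 * √(g x (pt E x - u) (pt E x - u))) :=
      ENNReal.continuous_ofReal.comp (continuous_const.mul
        ((continuous_form (g x)).comp (continuous_const.sub continuous_id)).sqrt)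
    have h3 := (h2.tendsto (pt E x)).comp hc
    rwa [sub_self, map_zero, Real.sqrt_zero, mul_zero, ENNReal.ofReal_zero] at h3
  refine tendsto_of_tendsto_of_tendsto_of_le_of_le' tendsto_const_nhds h1
    (Eventually.of_forall fun _ => zero_le) ?_
  filter_upwards [hc.eventually (Metric.ball_mem_nhds _ hε),
    (chartAt E x).open_source.mem_nhds hs] with z h3 h4
  have := h _ (Metric.mem_ball_self hε) _ h3
  rwa [symm_pt, (chartAt E x).left_inv h4] at this

theorem continuousAt_ed (hg : Met g U) (hx : x ∈ U) (y : M) : ContinuousAt (ed g U y) x :=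
  tendsto_of_add (tendsto_ed hg hx) (Eventually.of_forall fun z => ed_triangle y x z)
    (Eventually.of_forall fun z => by rw [ed_comm (x := x)]; exact ed_triangle y z x)

/-- The Gauss lemma bounds the distance from the origin in the tangent space from below. -/
theorem sqrt_le_ed (hg : Met g U) (hH : Hs U) {V : Set E} (hV : IsOpen V) (hD : V ⊆ Dom g U p)
    (hp : p ∈ U) (v : E) :
    ENNReal.ofReal √(g p v v) ≤ ed (P216R.comap (expo g U p) g) V 0 v := by
  refine ENNReal.le_of_forall_pos_le_add fun ε hε _ => ?_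
  have hε' : (0 : ℝ) < ε := hε
  have hpos : ∀ u : E, 0 < g p u u + (ε : ℝ) ^ 2 := fun u => by
    have := g_nonneg hg hp u; positivity
  have hq : ∀ u : E, HasFDerivAt (fun u : E => g p u u + (ε : ℝ) ^ 2) ((2 : ℝ) • g p u) u := by
    intro u
    refine ((((g p).hasFDerivAt (x := u)).clm_apply (hasFDerivAt_id u)).add_const _).congr_fderiv ?_
    ext w
    simp [hg.symm p hp w u, two_mul]
  have hsm : ContDiff ℝ 1 fun u : E => √(g p u u + (ε : ℝ) ^ 2) :=
    (((g p).contDiff.clm_apply contDiff_id).add contDiff_const).sqrt fun u => (hpos u).ne'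
  have h1 := lip_of_mfderiv (g := P216R.comap (expo g U p) g) hV
    (φ := fun u : E => √(g p u u + (ε : ℝ) ^ 2)) hsm.contMDiff.contMDiffOn one_pos
    (fun u hu w => by
      have e1 : mdF E (fun u : E => √(g p u u + (ε : ℝ) ^ 2)) u w
          = g p u w / √(g p u u + (ε : ℝ) ^ 2) := by
        rw [mdF, mfderiv_eq_fderiv, ((hq u).sqrt (hpos u).ne').fderiv]
        simp only [smul_apply, smul_eq_mul]
        field_simp
      have hm := expo_mem hg hH (hD hu)
      have e2 := abs_cs (B := P216R.comap (expo g U p) g u) (fun _ _ => hg.symm _ hm _ _)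
        (fun _ => g_nonneg hg hm _) u w
      rw [gauss hg hH (hD hu), gauss hg hH (hD hu)] at e2
      rw [e1, Real.norm_eq_abs, abs_div, abs_of_pos (Real.sqrt_pos.2 (hpos u)), one_mul,
        div_le_iff₀ (Real.sqrt_pos.2 (hpos u)), mul_comm]
      refine e2.trans (mul_le_mul_of_nonneg_right (Real.sqrt_le_sqrt ?_) (Real.sqrt_nonneg _))
      nlinarith) 0 v
  rw [ENNReal.ofReal_one, one_mul] at h1
  refine le_trans ?_ (add_le_add h1 le_rfl)
  rw [← ofReal_norm, ← ENNReal.ofReal_coe_nnreal, ← ENNReal.ofReal_add (norm_nonneg _)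
    hε'.le]
  refine ENNReal.ofReal_le_ofReal ?_
  simp only [map_zero, zero_add, Real.sqrt_sq hε'.le, Real.norm_eq_abs]
  have h2 : √(g p v v) ≤ √(g p v v + (ε : ℝ) ^ 2) := Real.sqrt_le_sqrt (by nlinarith)
  linarith [le_abs_self (√(g p v v + (ε : ℝ) ^ 2) - ε)]

/-- points of a normal ball -/
theorem Nb.exists_of_lt (h : Nb g U p r) (hg : Met g U) (hH : Hs U)
    (hz : ed g U p z < ENNReal.ofReal r) :
    ∃ v ∈ tb (g p) r, expo g U p v = z ∧ ed g U p z = ENNReal.ofReal √(g p v v) := by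
  obtain ⟨ρ, h0, h1, h2⟩ := ENNReal.lt_iff_exists_real_btwn.1 hz
  have h3 : ρ < r := (ENNReal.ofReal_lt_ofReal_iff h.pos).1 h2
  have hl := sqrt_le_ed hg hH (isOpen_tb _ r) h.sub h.mem
  obtain ⟨q, hq, e1, e2⟩ := ed_pull (h := g) (g := P216R.comap (expo g U p) g) (z := z) h.ld h.inj
    (fun v hv => expo_mem hg hH (h.sub hv)) hH one_pos (fun _ _ _ => by simp)
    (isCompact_ctb (hg.pos p h.mem) ρ) (fun v hv => lt_of_le_of_lt hv h3) (zero_mem_tb _ h.pos)
    (r := ENNReal.ofReal ρ) (fun q hq => by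
      rw [ENNReal.ofReal_one, one_mul] at hq
      exact (ENNReal.ofReal_le_ofReal_iff h0).1 ((hl q).trans hq.le))
    (by rwa [expo_zero hg hH h.mem])
  have hq' : q ∈ tb (g p) r := lt_of_le_of_lt hq h3
  rw [ENNReal.ofReal_one, one_mul, expo_zero hg hH h.mem] at e2
  exact ⟨q, hq', e1, le_antisymm (e1 ▸ ed_expo_le hg hH (h.sub hq')) ((hl q).trans e2)⟩

theorem Nb.ed_expo (h : Nb g U p r) (hg : Met g U) (hH : Hs U) (hv : v ∈ tb (g p) r) :
    ed g U p (expo g U p v) = ENNReal.ofReal √(g p v v) := by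
  obtain ⟨w, hw, e1, e2⟩ := h.exists_of_lt hg hH ((ed_expo_le hg hH (h.sub hv)).trans_lt
    ((ENNReal.ofReal_lt_ofReal_iff h.pos).2 hv))
  rw [e2, h.inj hw hv e1]

theorem Nb.image (h : Nb g U p r) (hg : Met g U) (hH : Hs U) :
    expo g U p '' tb (g p) r = bl g U p r := by
  refine Subset.antisymm ?_ fun z hz => ?_
  · rintro _ ⟨v, hv, rfl⟩
    exact (h.ed_expo hg hH hv).trans_lt ((ENNReal.ofReal_lt_ofReal_iff h.pos).2 hv)
  · obtain ⟨v, hv, e, -⟩ := h.exists_of_lt hg hH hz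
    exact ⟨v, hv, e⟩

theorem Nb.cpt (h : Nb g U p r) (hg : Met g U) (hH : Hs U) : Cpt g U p r := by
  intro ρ hρ
  have hs : {v | √(g p v v) ≤ max ρ 0} ⊆ tb (g p) r := fun v hv =>
    lt_of_le_of_lt hv (max_lt hρ h.pos)
  have e : cbl g U p ρ = expo g U p '' {v | √(g p v v) ≤ max ρ 0} := by
    refine Subset.antisymm (fun z hz => ?_) ?_
    · obtain ⟨v, -, e1, e2⟩ := h.exists_of_lt hg hH (z := z)
        (lt_of_le_of_lt hz ((ENNReal.ofReal_lt_ofReal_iff h.pos).2 hρ))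
      refine ⟨v, ?_, e1⟩
      have h1 : ENNReal.ofReal √(g p v v) ≤ ENNReal.ofReal (max ρ 0) :=
        e2 ▸ le_trans hz (ENNReal.ofReal_le_ofReal (le_max_left _ _))
      exact (ENNReal.ofReal_le_ofReal_iff (le_max_right _ _)).1 h1
    · rintro _ ⟨v, hv, rfl⟩
      refine (h.ed_expo hg hH (hs hv)).trans_le ((ENNReal.ofReal_le_ofReal hv).trans ?_)
      rw [ENNReal.ofReal_max]
      simp
  rw [e]
  exact (isCompact_ctb (hg.pos p h.mem) _).image_of_continuousOn
    (h.ld.smooth.continuousOn.mono hs)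

theorem comap_expo_zero (hg : Met g U) (hH : Hs U) (hp : p ∈ U) :
    P216R.comap (expo g U p) g 0 = g p := by
  ext v w
  rw [comap_apply, md_expo_zero hg hH hp, md_expo_zero hg hH hp, expo_zero hg hH hp]

theorem exists_nb (hg : Met g U) (hH : Hs U) (hp : p ∈ U) : ∃ r, Nb g U p r := by
  have h0 := zero_mem_Dom hg hH hp
  have hsm := contMDiffAt_expo hg hH h0
  obtain ⟨k, -, k2, -⟩ := exists_inv hsm fun v w h => by
    rwa [md_expo_zero hg hH hp, md_expo_zero hg hH hp] at h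
  have h1 := ev_form (hg.symm p hp) (hg.pos p hp)
    (hg.contDiffAt hsm (expo_mem hg hH h0)).continuousAt (δ := 1 / 2) (by norm_num)
  obtain ⟨r, hr, h2⟩ := exists_tb_subset (hg.symm p hp) (hg.pos p hp)
    (inter_mem ((isOpen_Dom hg hH).mem_nhds h0) (k2.and h1))
  refine ⟨r, hr, fun v hv => (h2 hv).1, ⟨isOpen_tb _ _, (contMDiffOn_expo hg hH).mono
    fun v hv => (h2 hv).1, fun v hv => ?_⟩, fun v hv w hw h => ?_⟩
  · rw [injective_iff_map_eq_zero]
    intro w hw
    by_contra hne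
    have h3 := (abs_le.1 ((h2 hv).2.2 w)).1
    rw [comap_expo_zero hg hH hp, comap_apply, hw, map_zero] at h3
    linarith [hg.pos p hp w hne]
  · rw [← (h2 hv).2.1, h, (h2 hw).2.1]

theorem eq_of_ed_eq_zero (hg : Met g U) (hH : Hs U) (h : ed g U x y = 0) : x = y := by
  have hx := (mem_of_ed_ne (g := g) (U := U) (x := x) (y := y) (by simp [h])).1
  obtain ⟨r, hr⟩ := exists_nb hg hH hx
  obtain ⟨v, -, e1, e2⟩ := hr.exists_of_lt hg hH (z := y) (by simpa [h] using hr.pos)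
  have h1 : √(g x v v) ≤ 0 := ENNReal.ofReal_eq_zero.1 (e2 ▸ h)
  have h2 : v = 0 := by
    by_contra hne
    exact absurd (Real.sqrt_pos.2 (hg.pos x hx v hne)) (not_lt.2 h1)
  rw [← e1, h2, expo_zero hg hH hx]

/-- A minimising broken geodesic has no corner. -/
theorem no_corner (hg : Met g U) (hH : Hs U) (hp : p ∈ U) (hv : g p v v = 1) (hw : g p w w = 1)
    (h : ∃ᶠ ε in 𝓝[>] (0 : ℝ),
      ENNReal.ofReal (2 * ε) ≤ ed g U (ray g U p v ε) (ray g U p w ε)) : w = -v := by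
  have key : ∀ C : ℝ, 1 < C → 2 ≤ C * √(g p (v - w) (v - w)) := by
    intro C hC
    obtain ⟨δ, hδ, h1⟩ := ed_le_near hg (isOpen_Dom hg hH) (contMDiffOn_expo hg hH)
      (fun _ hv => expo_mem hg hH hv) (zero_mem_Dom hg hH hp) (hg.symm p hp) (hg.pos p hp)
      (fun w => by rw [comap_expo_zero hg hH hp]) hC
    have e : ∀ u : E, ∀ᶠ ε in 𝓝[>] (0 : ℝ), ε • u ∈ Metric.ball (0 : E) δ ∧ ε ∈ Life g U p u := by
      intro u
      have h2 : Tendsto (fun ε : ℝ => ε • u) (𝓝 0) (𝓝 0) := by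
        exact (by fun_prop : Continuous fun ε : ℝ => ε • u).tendsto' 0 0 (zero_smul ℝ u)
      exact mem_nhdsWithin_of_mem_nhds ((h2.eventually (Metric.ball_mem_nhds _ hδ)).and
        (isOpen_Life.mem_nhds (zero_mem_Life hg hp u)))
    obtain ⟨ε, h2, h3, h4, h5⟩ :=
      (h.and_eventually ((e v).and ((e w).and self_mem_nhdsWithin))).exists
    have h5' : 0 < ε := h5
    have h6 := h1 _ h3.1 _ h4.1
    rw [expo_smul hg hH h3.2, expo_smul hg hH h4.2, ← smul_sub, sqrt_smul, abs_of_pos h5'] at h6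
    have h7 := (ENNReal.ofReal_le_ofReal_iff (by positivity)).1 (h2.trans h6)
    nlinarith
  have h2 : 2 ≤ √(g p (v - w) (v - w)) := by
    by_contra hlt
    rw [not_le] at hlt
    have h0 := Real.sqrt_nonneg (g p (v - w) (v - w))
    set q := √(g p (v - w) (v - w))
    have := key (4 / (2 + q)) (by rw [lt_div_iff₀ (by positivity)]; linarith)
    rw [div_mul_eq_mul_div, le_div_iff₀ (by positivity)] at this
    linarith
  have h3 : 4 ≤ g p (v - w) (v - w) := by
    have := Real.sq_sqrt (g_nonneg hg hp (v - w))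
    nlinarith
  by_contra hne
  have h4 := hg.pos p hp (w + v) fun h => hne (eq_neg_of_add_eq_zero_left h)
  simp only [map_add, map_sub, add_apply, sub_apply, hv, hw] at h3 h4
  linarith

end Vale.Agent.P216CP
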