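import Vale.Agent.P216CP.HR

/-!
# P216CP/Uniq: uniqueness and regularity of minimisers, limits of minimisers, rays and lines
-/

open scoped Manifold ContDiff Topology ENNReal
open Set Filter
open Vale.Agent.P219.RG Vale.Agent.P216R

noncomputable section

set_option maxSynthPendingDepth 3

namespace Vale.Agent.P216CP

variable {E : Type} [NormedAddCommGroup E] [NormedSpace ℝ E]
variable {M : Type} [TopologicalSpace M] [ChartedSpace E M]
variable {g : Ten E M} {U : Set M} {γ γ' c : ℝ → M} {s : Set ℝ} {t a b r L δ R : ℝ}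
  {p x y z : M} {v w : E}
variable [FiniteDimensional ℝ E] [IsManifold 𝓘(ℝ, E) ∞ M]

/-- two rays with the same position and velocity at a common time -/
theorem eq_of_ray_eq (hg : Met g U) (hH : Hs U) (hv : a ∈ Life g U x v) (hw : a ∈ Life g U x w)
    (h1 : ray g U x v a = ray g U x w a) (h2 : dv (ray g U x v) a = dv (E := E) (ray g U x w) a) :
    v = w := by
  have hx := mem_of_Life hv
  have h3 : ray g U x v =ᶠ[𝓝 0] ray g U x w := by
    filter_upwards [isOpen_Life.mem_nhds (zero_mem_Life hg hx v),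
      isOpen_Life.mem_nhds (zero_mem_Life hg hx w)] with t e1 e2
    have e3 := (ray_add hg hH hv (t := t - a) (by rwa [sub_add_cancel])).2
    have e4 := (ray_add hg hH hw (t := t - a) (by rwa [sub_add_cancel])).2
    rw [sub_add_cancel] at e3 e4
    rw [← e3, ← e4, h2, h1]
  rw [← dv_ray_zero (v := v) hg hH hx, dv_congr h3, dv_ray_zero hg hH hx]

/-- a minimiser that extends beyond a point is the only minimiser to this point -/
theorem uniq_ray (hg : Met g U) (hH : Hs U) (hv : g x v v = 1) (hw : g x w w = 1) (hδ : 0 < δ)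
    (hδL : δ < L) (hL : L ∈ Life g U x v) (hd : ENNReal.ofReal L ≤ ed g U x (ray g U x v L))
    (hw' : δ ∈ Life g U x w) (h : ray g U x w δ = ray g U x v δ) : w = v := by
  have hv' : δ ∈ Life g U x v := Icc_subset_Life hL ⟨hδ.le, hδL.le⟩
  have h1 := ray_add hg hH hv' (t := L - δ) (by rwa [sub_add_cancel])
  rw [sub_add_cancel] at h1
  have h2 : g (ray g U x v δ) (dv (ray g U x v) δ) (dv (ray g U x v) δ) = 1 :=
    (sp_ray hg hH hv').trans hv
  have h3 := eq_dv_of_min hg hH hw hw' hδ (w := dv (ray g U x v) δ) (b := L - δ) (by rwa [h])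
    (by rw [h]; exact h1.1) (by linarith) (by rwa [h, h1.2, add_sub_cancel])
  exact eq_of_ray_eq hg hH hw' hv' h h3.symm

theorem minGeo_uniq (hg : Met g U) (hH : Hs U) (h : MinGeo g U γ L) (h' : MinGeo g U γ' t)
    (h0 : γ' 0 = γ 0) (ht : 0 < t) (htL : t < L) (he : γ' t = γ t) :
    vel E γ' 0 = vel E γ 0 ∧ EqOn γ' γ (Icc 0 t) := by
  have e1 := minGeo_eq_ray hg hH h ⟨h.nonneg, le_rfl⟩
  have e2 := minGeo_eq_ray hg hH h ⟨ht.le, htL.le⟩
  have e3 := minGeo_eq_ray hg hH h' ⟨ht.le, le_rfl⟩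
  have e4 := minGeo_sp h' ⟨le_rfl, ht.le⟩
  rw [h0] at e3 e4
  have e5 := uniq_ray hg hH (minGeo_sp h ⟨le_rfl, h.nonneg⟩) e4 ht htL e1.1
    (by rw [e1.2, minGeo_ed h]) e3.1 (by rw [e3.2, e2.2, he])
  refine ⟨e5, fun τ hτ => ?_⟩
  rw [← (minGeo_eq_ray hg hH h' hτ).2, h0, e5, (minGeo_eq_ray hg hH h ⟨hτ.1, hτ.2.trans htL.le⟩).2]

/-- the vectors whose radial geodesic is minimising up to time one -/
def Cut (g : Ten E M) (U : Set M) (x : M) : Set E :=
  {v | v ∈ Dom g U x ∧ ed g U x (expo g U x v) = ENNReal.ofReal √(g x v v)}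

omit [FiniteDimensional ℝ E] [IsManifold 𝓘(ℝ, E) ∞ M] in
theorem unit_dir (hg : Met g U) (hx : x ∈ U) (hv : v ≠ 0) :
    0 < √(g x v v) ∧ g x ((√(g x v v))⁻¹ • v) ((√(g x v v))⁻¹ • v) = 1 ∧
      √(g x v v) • (√(g x v v))⁻¹ • v = v := by
  have h := Real.sqrt_pos.2 (hg.pos x hx v hv)
  refine ⟨h, Real.sqrt_eq_one.1 ?_, smul_inv_smul₀ h.ne' v⟩
  rw [sqrt_smul, abs_of_pos (inv_pos.2 h), inv_mul_cancel₀ h.ne']

theorem Cut.minGeo (hg : Met g U) (hH : Hs U) (hu : g x w w = 1) (h0 : 0 ≤ L)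
    (hv : L • w ∈ Cut g U x) : MinGeo g U (ray g U x w) L := by
  have h1 := (smul_mem_Dom hg hH).1 hv.1
  refine minGeo_ray hg hH hu h0 h1 ?_
  rw [← expo_smul hg hH h1, hv.2, sqrt_smul, hu, Real.sqrt_one, mul_one, abs_of_nonneg h0]

theorem minGeo_cut (hg : Met g U) (hH : Hs U) (h : MinGeo g U γ L) (ht : t ∈ Icc 0 L) :
    t • vel E γ 0 ∈ Cut g U (γ 0) ∧ expo g U (γ 0) (t • vel E γ 0) = γ t := by
  have h1 := minGeo_eq_ray hg hH h ht
  have h2 := (expo_smul hg hH h1.1).trans h1.2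
  refine ⟨⟨(smul_mem_Dom hg hH).2 h1.1, ?_⟩, h2⟩
  rw [h2, minGeo_ed' h ht, sqrt_smul, minGeo_sp h ⟨le_rfl, h.nonneg⟩, Real.sqrt_one, mul_one,
    abs_of_nonneg ht.1]

theorem zero_mem_Cut (hg : Met g U) (hH : Hs U) (hx : x ∈ U) : (0 : E) ∈ Cut g U x :=
  ⟨zero_mem_Dom hg hH hx, by simp [expo_zero hg hH hx, ed_self hx]⟩

theorem Cut.smul (hg : Met g U) (hH : Hs U) (hv : v ∈ Cut g U x) (ht : t ∈ Icc (0 : ℝ) 1) :
    t • v ∈ Cut g U x := by
  have hx := mem_of_Life hv.1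
  rcases eq_or_ne v 0 with rfl | hne
  · rwa [smul_zero]
  obtain ⟨h1, h2, h3⟩ := unit_dir hg hx hne
  have h4 := Cut.minGeo hg hH h2 h1.le (by rwa [h3])
  have h5 := (minGeo_cut hg hH h4 (t := t * √(g x v v))
    ⟨mul_nonneg ht.1 h1.le, by nlinarith [ht.2]⟩).1
  rwa [ray_zero hg hH, vel_ray_zero hg hH hx, mul_smul, h3] at h5

/-- the exponential map is injective before the cut locus -/
theorem Cut.uniq (hg : Met g U) (hH : Hs U) (hv : v ∈ Cut g U x) (ht : t ∈ Ico (0 : ℝ) 1)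
    (hw : w ∈ Cut g U x) (he : expo g U x w = expo g U x (t • v)) : w = t • v := by
  have hx := mem_of_Life hv.1
  have h0 := Cut.smul hg hH hv ⟨ht.1, ht.2.le⟩
  have e1 : √(g x w w) = √(g x (t • v) (t • v)) :=
    (ENNReal.ofReal_eq_ofReal_iff (Real.sqrt_nonneg _) (Real.sqrt_nonneg _)).1
      (by rw [← hw.2, ← h0.2, he])
  by_cases hz : t • v = 0
  · by_contra hne
    rw [hz] at hne e1
    have := (unit_dir hg hx hne).1
    simp [e1] at this
  have hne : v ≠ 0 := fun h => hz (by rw [h, smul_zero])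
  have ht0 : 0 < t := lt_of_le_of_ne ht.1 fun h => hz (by rw [← h, zero_smul])
  obtain ⟨h1, h2, h3⟩ := unit_dir hg hx hne
  rw [sqrt_smul, abs_of_pos ht0] at e1
  have hwne : w ≠ 0 := by
    rintro rfl
    have := mul_pos ht0 h1
    simp [← e1] at this
  obtain ⟨w1, w2, w3⟩ := unit_dir hg hx hwne
  have l1 := (smul_mem_Dom hg hH).1 (show _ ∈ Dom g U x by rw [h3]; exact hv.1)
  have l2 := (smul_mem_Dom hg hH).1 (show _ ∈ Dom g U x by rw [w3]; exact hw.1)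
  have l3 : √(g x w w) < √(g x v v) := by nlinarith [ht.2]
  have e2 : √(g x w w) • (√(g x v v))⁻¹ • v = t • v := by rw [e1, mul_smul, h3]
  have h4 := uniq_ray hg hH h2 w2 w1 l3 l1 (by rw [← expo_smul hg hH l1, h3, hv.2]) l2 (by
    rw [← expo_smul hg hH l2, w3, ← expo_smul hg hH (Icc_subset_Life l1 ⟨w1.le, l3.le⟩), e2, he])
  rw [← e2, ← h4, w3]

theorem exists_cut (hg : Met g U) (hH : Hs U) (hc : Cpt g U x R) (hy : y ∈ bl g U x R) :
    ∃ v ∈ Cut g U x, expo g U x v = y ∧ √(g x v v) = dd g U x y := by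
  obtain ⟨v, h1, h2, h3⟩ := exists_expo hg hH hc hy
  exact ⟨v, ⟨tb_subset_Dom hg hH hc (mem_of_bl hy).1 h1,
    by rw [h2, h3, ofReal_dd (ne_top_of_bl hy)]⟩, h2, h3⟩

theorem continuousOn_ed_expo (hg : Met g U) (hH : Hs U) (y : M) :
    ContinuousOn (fun v => ed g U y (expo g U x v)) (Dom g U x) := fun _ hv =>
  (ContinuousAt.comp (hg.continuousAt_ed_right y (expo_mem hg hH hv))
    (continuousAt_expo hg hH hv)).continuousWithinAt

theorem isCompact_cut (hg : Met g U) (hH : Hs U) (hc : Cpt g U x R) (hx : x ∈ U) (hr : r < R) :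
    IsCompact (Cut g U x ∩ {v | √(g x v v) ≤ r}) := by
  have hK := isCompact_ctb (hg.pos x hx) r
  have hs : {v | √(g x v v) ≤ r} ⊆ Dom g U x := fun v hv =>
    tb_subset_Dom hg hH hc hx (lt_of_le_of_lt hv hr)
  have h1 := hK.isClosed.isClosed_eq ((continuousOn_ed_expo hg hH x).mono hs)
    (ENNReal.continuous_ofReal.comp (continuous_form (g x)).sqrt).continuousOn
  convert hK.of_isClosed_subset h1 fun v hv => hv.1 using 1
  ext v
  exact ⟨fun h => ⟨h.2, h.1.2⟩, fun h => ⟨⟨hs h.1, h.2⟩, h.1⟩⟩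

/-- near a point before the cut locus, minimising vectors are near -/
theorem Cut.ev_near (hg : Met g U) (hH : Hs U) (hc : Cpt g U x R) (hv : v ∈ Cut g U x)
    (hR : v ∈ tb (g x) R) (ht : t ∈ Ico (0 : ℝ) 1) {N : Set E} (hN : N ∈ 𝓝 (t • v)) :
    ∀ᶠ z in 𝓝 (expo g U x (t • v)), ∃ w ∈ Cut g U x ∩ N, expo g U x w = z := by
  have hx := mem_of_Life hv.1
  have h0 := Cut.smul hg hH hv ⟨ht.1, ht.2.le⟩
  obtain ⟨r, hr1, hr2⟩ := exists_between (show √(g x v v) < R from hR)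
  obtain ⟨N', hN', hNo, hmem⟩ := mem_nhds_iff.1 hN
  have hK := (isCompact_cut hg hH hc hx hr2).diff hNo
  have hK' := hK.image_of_continuousOn
    ((contMDiffOn_expo hg hH).continuousOn.mono fun w hw => hw.1.1.1)
  have h1 := hH.compl_mem hK' (by rintro _ ⟨w, hw, rfl⟩; exact expo_mem hg hH hw.1.1.1)
    (expo_mem hg hH h0.1) (by
      rintro ⟨w, hw, he⟩
      exact hw.2 (Cut.uniq hg hH hv ht hw.1.1 he ▸ hmem))
  have h2 : expo g U x (t • v) ∈ bl g U x r := by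
    refine h0.2.trans_lt ((ENNReal.ofReal_lt_ofReal_iff ((Real.sqrt_nonneg _).trans_lt hr1)).2 ?_)
    rw [sqrt_smul, abs_of_nonneg ht.1]
    nlinarith [ht.2, Real.sqrt_nonneg (g x v v)]
  filter_upwards [h1, (hg.isOpen_bl x r).mem_nhds h2] with z e1 e2
  obtain ⟨w, w1, w2, w3⟩ := exists_cut hg hH (hc.mono hr2.le) e2
  refine ⟨w, ⟨w1, hN' ?_⟩, w2⟩
  by_contra hn
  exact e1 ⟨w, ⟨⟨w1, w3.trans_le (dd_lt_of_bl e2).le⟩, hn⟩, w2⟩

/-! ### curves that realise the distance are geodesics -/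

theorem continuousOn_of_iso (hg : Met g U) (hH : Hs U)
    (h : ∀ a ∈ s, ∀ b ∈ s, ed g U (c a) (c b) ≤ ENNReal.ofReal |a - b|) : ContinuousOn c s := by
  intro a ha
  have hm := (mem_of_ed_ne (ne_top_of_le_ne_top ENNReal.ofReal_ne_top (h a ha a ha))).1
  refine (hg.tendsto_iff hH hm).2 (tendsto_of_tendsto_of_tendsto_of_le_of_le' tendsto_const_nhds
    (h := fun b => ENNReal.ofReal |a - b|) ?_ (Eventually.of_forall fun _ => zero_le)
    (eventually_nhdsWithin_of_forall (h a ha)))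
  exact tendsto_nhdsWithin_of_tendsto_nhds ((ENNReal.continuous_ofReal.comp
    (continuous_const.sub continuous_id).abs).tendsto' a 0 (by simp))

theorem exists_ray_of_iso (hg : Met g U) (hH : Hs U) (h0 : 0 < L)
    (h : ∀ a ∈ Icc 0 L, ∀ b ∈ Icc 0 L, ed g U (c a) (c b) = ENNReal.ofReal |a - b|) :
    ∃ v, g (c 0) v v = 1 ∧ L ∈ Life g U (c 0) v ∧ EqOn (ray g U (c 0) v) c (Icc 0 L) := by
  have hz : (0 : ℝ) ∈ Icc 0 L := ⟨le_rfl, h0.le⟩
  have hd : ∀ t ∈ Icc 0 L, ed g U (c 0) (c t) = ENNReal.ofReal t := fun t ht => by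
    rw [h 0 hz t ht, zero_sub, abs_neg, abs_of_nonneg ht.1]
  have hd' : ∀ a ∈ Icc 0 L, ∀ b ∈ Icc 0 L, a ≤ b → ed g U (c a) (c b) = ENNReal.ofReal (b - a) :=
    fun a ha b hb hab => by rw [h a ha b hb, abs_of_nonpos (sub_nonpos.2 hab), neg_sub]
  have hm : ∀ t ∈ Icc 0 L, c t ∈ U := fun t ht =>
    (mem_of_ed_ne (hd t ht ▸ ENNReal.ofReal_ne_top)).2
  obtain ⟨r, hr⟩ := exists_nb hg hH (hm 0 hz)
  set η := min (r / 2) L with hη
  have hη0 : 0 < η := lt_min (half_pos hr.pos) h0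
  have hη1 : η ≤ L := min_le_right _ _
  have hη2 : η < r := (min_le_left _ _).trans_lt (half_lt_self hr.pos)
  obtain ⟨v, v1, v2, v3, v4⟩ := hr.exists_unit hg hH hη0 hη2 (hd η ⟨hη0.le, hη1⟩)
  have key : ∀ t ∈ Icc 0 L, t ∈ Life g U (c 0) v → ray g U (c 0) v t = c t := by
    intro t ht hl
    rcases le_total η t with h1 | h1
    · exact prolong hg hH v1 (hd t ht) hl hη0 h1 (by rw [v4, hd' η ⟨hη0.le, hη1⟩ t ht h1])
    rcases ht.1.eq_or_lt with rfl | ht0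
    · exact ray_zero hg hH
    obtain ⟨w, w1, -, w3, w4⟩ := hr.exists_unit hg hH ht0 (h1.trans_lt hη2) (hd t ht)
    have e1 : η • w ∈ tb (g (c 0)) r := by
      change √_ < r
      rwa [sqrt_smul, w1, Real.sqrt_one, mul_one, abs_of_pos hη0]
    have e2 := (smul_mem_Dom hg hH).1 (hr.sub e1)
    have e3 := prolong hg hH w1 (hd η ⟨hη0.le, hη1⟩) e2 ht0 h1
      (by rw [w4, hd' t ht η ⟨hη0.le, hη1⟩ h1])
    have e4 := hr.inj e1 v2 (by rw [expo_smul hg hH e2, expo_smul hg hH v3, e3, v4])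
    rw [← smul_right_injective E hη0.ne' e4, w4]
  have hl : L ∈ Life g U (c 0) v := mem_Tm_of_compact hg hH
    (isCompact_Icc.image_of_continuousOn (continuousOn_of_iso hg hH fun a ha b hb =>
      (h a ha b hb).le)) (by rintro _ ⟨t, ht, rfl⟩; exact hm t ht) (self_mem_dom (hm 0 hz)) h0.le
    fun t ht hl => ⟨t, ⟨ht.1, ht.2.le⟩, (key t ⟨ht.1, ht.2.le⟩ hl).symm⟩
  exact ⟨v, v1, hl, fun t ht => key t ht (Icc_subset_Life hl ht)⟩

/-- a curve that realises the distance is a minimising geodesic -/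
theorem exists_minGeo_of_iso (hg : Met g U) (hH : Hs U) (h0 : 0 < L)
    (h : ∀ a ∈ Icc 0 L, ∀ b ∈ Icc 0 L, ed g U (c a) (c b) = ENNReal.ofReal |a - b|) :
    ∃ γ, MinGeo g U γ L ∧ EqOn γ c (Icc 0 L) := by
  obtain ⟨v, h1, h2, h3⟩ := exists_ray_of_iso hg hH h0 h
  refine ⟨_, minGeo_ray hg hH h1 h0.le h2 ?_, h3⟩
  rw [h3 ⟨h0.le, le_rfl⟩, h 0 ⟨le_rfl, h0.le⟩ L ⟨h0.le, le_rfl⟩, zero_sub, abs_neg, abs_of_pos h0]

theorem isGeo_of_iso (hg : Met g U) (hH : Hs U) (hs : IsOpen s)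
    (h : ∀ a ∈ s, ∀ b ∈ s, ed g U (c a) (c b) = ENNReal.ofReal |a - b|) :
    IsGeo g U c s ∧ ∀ t ∈ s, spd g c t = 1 := by
  have key : ∀ t ∈ s, ∃ u, IsOpen u ∧ t ∈ u ∧ IsGeo g U c u ∧ spd g c t = 1 := by
    intro t ht
    obtain ⟨ε, hε, h1⟩ := (Metric.nhds_basis_closedBall.mem_iff).1 (hs.mem_nhds ht)
    rw [Real.closedBall_eq_Icc] at h1
    obtain ⟨γ, h2, h3⟩ := exists_minGeo_of_iso hg hH (c := fun τ => c (τ + (t - ε))) (L := 2 * ε)
      (by linarith) fun a ha b hb => by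
        rw [h _ (h1 ⟨by linarith [ha.1], by linarith [ha.2]⟩) _
          (h1 ⟨by linarith [hb.1], by linarith [hb.2]⟩), add_sub_add_right_eq_sub]
    obtain ⟨ε', hε', h4⟩ := minGeo_isGeo h2
    have h5 : EqOn c (fun τ => γ (1 * τ + -(t - ε))) (Ioo (t - ε) (t + ε)) := fun τ hτ => by
      have := h3 (x := 1 * τ + -(t - ε)) ⟨by linarith [hτ.1], by linarith [hτ.2]⟩
      simp only [this]
      congr 1; ring
    have h6 : IsGeo g U (fun τ => γ (1 * τ + -(t - ε))) (Ioo (t - ε) (t + ε)) :=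
      (h4.comp_affine 1 (-(t - ε))).mono fun τ hτ => ⟨by linarith [hτ.1], by linarith [hτ.2]⟩
    have ht' : t ∈ Ioo (t - ε) (t + ε) := ⟨by linarith, by linarith⟩
    refine ⟨_, isOpen_Ioo, ht', h6.congr isOpen_Ioo h5, ?_⟩
    have h7 : 1 * t + -(t - ε) ∈ Icc 0 (2 * ε) := ⟨by linarith, by linarith⟩
    rw [spd_congr (h5.eventuallyEq_of_mem (isOpen_Ioo.mem_nhds ht')), h6.spd_eq isOpen_Ioo ht',
      sp_affine, sp, ← minGeo_vel h2 h7, minGeo_sp h2 h7]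
    simp
  exact ⟨IsGeo.of_forall fun t ht => (key t ht).imp fun u hu => ⟨hu.1, hu.2.1, hu.2.2.1⟩,
    fun t ht => (key t ht).choose_spec.2.2.2⟩

/-- pieces of a line -/
theorem minGeo_of_line (hg : Met g U) (hH : Hs U)
    (h : ∀ a b, ed g U (c a) (c b) = ENNReal.ofReal |a - b|) {k : ℝ} (hk : k ^ 2 = 1) (a : ℝ)
    (h0 : 0 ≤ L) : MinGeo g U (fun t => c (k * t + a)) L := by
  have hk' : |k| = 1 := by rw [← sq_eq_sq₀ (abs_nonneg k) zero_le_one, sq_abs, hk, one_pow]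
  have h1 : ∀ s t, ed g U (c (k * s + a)) (c (k * t + a)) = ENNReal.ofReal |s - t| := fun s t => by
    rw [h, add_sub_add_right_eq_sub, ← mul_sub, abs_mul, hk', one_mul]
  obtain ⟨h2, h3⟩ := isGeo_of_iso hg hH (c := fun t => c (k * t + a)) isOpen_univ
    fun s _ t _ => h1 s t
  have h4 := h2.mono (subset_univ (Ioo (-1) (L + 1)))
  exact ⟨h0, ⟨1, one_pos, h4.toGeo, h4.mem⟩, fun t _ => h3 t (mem_univ _), fun s _ t _ => h1 s t⟩

/-- two minimisers that fit together form one geodesic -/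
theorem minGeo_concat (hg : Met g U) (hH : Hs U) (h : MinGeo g U γ a) (h' : MinGeo g U γ' b)
    (ha : 0 < a) (hb : 0 < b) (he : γ' 0 = γ a)
    (hd : ENNReal.ofReal (a + b) ≤ ed g U (γ 0) (γ' b)) :
    vel E γ' 0 = vel E γ a ∧ ∃ σ, MinGeo g U σ (a + b) ∧ EqOn σ γ (Icc 0 a) ∧
      ∀ t ∈ Icc 0 b, σ (t + a) = γ' t := by
  have hv := minGeo_sp h ⟨le_rfl, ha.le⟩
  have e1 := minGeo_eq_ray hg hH h ⟨ha.le, le_rfl⟩
  have e2 : ∀ t ∈ Icc 0 b, t ∈ Life g U (γ a) (vel E γ' 0) ∧ ray g U (γ a) (vel E γ' 0) t = γ' t :=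
    fun t ht => he ▸ minGeo_eq_ray hg hH h' ht
  have e3 := eq_dv_of_min hg hH hv e1.1 ha (w := vel E γ' 0) (b := b)
    (by rw [e1.2, ← he]; exact minGeo_sp h' ⟨le_rfl, hb.le⟩)
    (by rw [e1.2]; exact (e2 b ⟨hb.le, le_rfl⟩).1) hb (by rwa [e1.2, (e2 b ⟨hb.le, le_rfl⟩).2])
  set σ := ray g U (γ 0) (vel E γ 0) with hσ
  have e4 := (sol_ray hg hH (mem_of_Life e1.1) (vel E γ 0)).extend hg hH
    ((isGeo_ray (p := γ a) (v := vel E γ' 0) hg hH).comp_affine 1 (-a))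
    (isOpen_Life.preimage (by fun_prop : Continuous fun t : ℝ => 1 * t + -a))
    (ord_preimage ordConnected_Life 1 (-a)) e1.1
    (by simpa using (e2 0 ⟨le_rfl, hb.le⟩).1) (b := γ a)
    (by rw [← hσ, e1.2]; exact mem_chart_source E _)
    (by simp only [one_mul, add_neg_cancel, ray_zero hg hH]; exact mem_chart_source E _) (by
      rw [stt_affine, one_mul, add_neg_cancel, one_smul,
        (sol_ray hg hH (minGeo_mem h ⟨ha.le, le_rfl⟩) (vel E γ' 0)).init, e3, stt, dv, cc, ← hσ,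
        e1.2]
      rfl)
  have e5 : ∀ t ∈ Icc 0 b, t + a ∈ Life g U (γ 0) (vel E γ 0) ∧ σ (t + a) = γ' t := fun t ht => by
    have := e4 (t + a) (by simpa using (e2 t ht).1)
    simp only [one_mul, add_neg_cancel_right, (e2 t ht).2] at this
    exact this
  have e6 := e5 b ⟨hb.le, le_rfl⟩
  rw [add_comm] at e6
  have e7 := minGeo_ray hg hH hv (by linarith) e6.1 (by rwa [← hσ, e6.2])
  have e8 : EqOn σ γ (Icc 0 a) := fun t ht => (minGeo_eq_ray hg hH h ht).2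
  refine ⟨?_, σ, e7, e8, fun t ht => (e5 t ht).2⟩
  obtain ⟨ε, hε, h1⟩ := minGeo_isGeo h
  rw [e3, minGeo_vel h ⟨ha.le, le_rfl⟩]
  refine dv_congr ?_
  filter_upwards [Ioo_mem_nhds (show -ε < a by linarith) (show a < a + ε by linarith)] with t ht
  have := h1.eq_ray hg hH isOpen_Ioo ordConnected_Ioo (c := 0) (t := t)
    ⟨by linarith, by linarith⟩ (by rwa [add_zero])
  rw [add_zero, ← minGeo_vel h ⟨le_rfl, h.nonneg⟩] at this
  exact this.2

/-- a minimising geodesic through an intermediate point -/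
theorem exists_minGeo_through (hg : Met g U) (hH : Hs U) (hc : Cpt g U x R)
    (h1 : ed g U x y = ENNReal.ofReal a) (ha : 0 < a) (hb : 0 ≤ b) (hR : a + b < R)
    (h2 : ed g U y z ≤ ENNReal.ofReal b) (h3 : ed g U x z = ENNReal.ofReal (a + b)) :
    ∃ γ, MinGeo g U γ (a + b) ∧ γ 0 = x ∧ γ a = y ∧ γ (a + b) = z := by
  obtain ⟨v, v1, -, v3⟩ := exists_ray hg hH hc h1 ha (by linarith)
  have hx := (mem_of_ed_ne (h1 ▸ ENNReal.ofReal_ne_top)).1
  have hl : a + b ∈ Life g U x v := mem_Life_of_cpt hg hH hc hx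
    (by rwa [v1, Real.sqrt_one, mul_one, abs_of_pos (by linarith)])
  have e := prolong hg hH v1 h3 hl ha (by linarith) (by rwa [v3, add_sub_cancel_left])
  exact ⟨_, minGeo_ray hg hH v1 (by linarith) hl (by rw [e, h3]), ray_zero hg hH, v3, e⟩

/-- Hopf-Rinow with the geodesic extended to `(-R, R)` -/
theorem exists_minGeo_ext [Nontrivial E] (hg : Met g U) (hH : Hs U) (hc : Cpt g U x R)
    (hy : y ∈ bl g U x R) : ∃ γ, MinGeo g U γ (dd g U x y) ∧ γ 0 = x ∧ γ (dd g U x y) = y ∧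
      IsGeo g U γ (Ioo (-R) R) ∧ ∀ t ∈ Ioo (-R) R, spd g γ t = 1 ∧ γ t ∈ cbl g U x |t| := by
  obtain ⟨γ, h1, h2, h3⟩ := exists_minGeo hg hH hc hy
  have hv := minGeo_sp h1 ⟨le_rfl, h1.nonneg⟩
  have e := minGeo_eq_ray hg hH h1 ⟨h1.nonneg, le_rfl⟩
  rw [h2] at hv e
  rw [h3] at e
  have hl : Ioo (-R) R ⊆ Life g U x (vel E γ 0) := fun t ht => mem_Life_of_cpt hg hH hc
    (mem_of_bl hy).1 (by rw [hv, Real.sqrt_one, mul_one]; exact abs_lt.2 ht)
  refine ⟨_, minGeo_ray hg hH hv h1.nonneg e.1 (by rw [e.2, ofReal_dd (ne_top_of_bl hy)]),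
    ray_zero hg hH, e.2, (isGeo_ray hg hH).mono hl, fun t ht => ⟨?_, ?_⟩⟩
  · rw [spd_ray hg hH (hl ht), hv, Real.sqrt_one]
  · have := ed_ray_le' hg hH (hl ht)
    rwa [hv, Real.sqrt_one, mul_one] at this

end Vale.Agent.P216CP
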