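import Vale.Agent.P216CP.Uniq
import Vale.Agent.P216L.Cmp
import Vale.Agent.P216TP.Top
import Vale.Agent.P216SP.Split

/-!
# P216CP/All: unconditional Toponogov comparison and splitting theorem
-/

namespace Vale.Agent.P216CP

variable (E : Type) [NormedAddCommGroup E] [NormedSpace ℝ E] [FiniteDimensional ℝ E] [Nontrivial E]

theorem top0 : TOP0 E := P216TP.top0 (P216L.suph E) (hr E)

theorem top1 : TOP1 E := P216TP.top1 (P216L.suph E) (hr E)

theorem split : SPLIT E := P216SP.split' (hr E) (top0 E)

end Vale.Agent.P216CP
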