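import Vale.Agent.P216CP.Win
import Vale.Agent.P216KV.RT

/-!
# P216CP/WinU: the window lemmas without hypotheses
-/

namespace Vale.Agent.P216CP

theorem winA' : P216FA.WIN := winA P216KV.rt P216KV.gr

theorem winB' : P216FB.WIN := winB P216KV.rt P216KV.gr

end Vale.Agent.P216CP
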