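import Vale.Agent.P216DC.Stm2
import Vale.Agent.P216DC.LimV
import Vale.Agent.P216BF.Ball
import Vale.Agent.P216R.Flow

/-!
# P216CP/Dec: curvature decay from a volume bound at the final time
-/

open scoped Manifold ContDiff Topology ENNReal
open Set Filter MeasureTheory

set_option maxSynthPendingDepth 3

noncomputable section

namespace Vale.Agent.P216CP

open Vale.Agent.P216R Vale.Agent.P216BF Vale.Agent.P216DC

variable (M : Type) [TopologicalSpace M] [ChartedSpace E3 M] [IsManifold 𝓘(ℝ, E3) ∞ M]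
  [MeasurableSpace M] [BorelSpace M]

/-- `DIST` on `M` with the constant `c` -/
def DI (c : ℝ) : Prop :=
  ∀ (g : ℝ → Ten E3 M) (V : Set M) (x y : M) (a b r K : ℝ), a ≤ b → 0 ≤ K → RF g (Icc a b) V →
    Hs V → (∀ t ∈ Icc a b, Cpt (g t) V x r ∧ ∀ z ∈ bl (g t) V x r, RicLe (g t) z K) →
    ed (g b) V x y + ENNReal.ofReal (c * √K * (b - a)) < ENNReal.ofReal r →
    ed (g a) V x y ≤ ed (g b) V x y + ENNReal.ofReal (c * √K * (b - a))

/-- `BGC` on `M` with the constant `c` -/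
def BC (c : ℝ) : Prop :=
  ∀ (g : Ten E3 M) (U : Set M) (x : M) (w r s : ℝ),
    Met g U → Hs U → Cpt g U x r → (∀ y ∈ bl g U x r, SecGe g y (-(1 / r ^ 2))) → 0 ≤ w → 0 < s →
    s ≤ r → Vl w g U x r → Vl (c * w) g U x s

/-- `BL` on `M` with the constants `w`, `A` -/
def BA (w A : ℝ) : Prop :=
  ∀ (g : ℝ → Ten E3 M) (U : Set M) (x : M), Loc g U x A A →
    (∀ t ∈ Icc (-A) 0, ∀ y ∈ bl (g 0) U x A, Sc (g t) y ≤ 4) → Vl w (g 0) U x A → Sc (g 0) x ≠ 1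

variable {M}

/-- a short flow with `sec ≥ -1`, complete up to the radius one -/
structure LV (g : ℝ → Ten E3 M) (V : Set M) (x : M) (τ : ℝ) : Prop where
  rf : RF g (Icc (-τ) 0) V
  hs : Hs V
  mem : x ∈ V
  cpt : Cpt (g 0) V x 1
  sec : ∀ t ∈ Icc (-τ) 0, ∀ y ∈ V, SecGe (g t) y (-1)
  pos : 0 ≤ τ
  small : τ ≤ 1 / 1000

variable {g : ℝ → Ten E3 M} {V : Set M} {x y : M} {τ t c cB w A s ρ : ℝ}

omit [MeasurableSpace M] [BorelSpace M] [IsManifold 𝓘(ℝ, E3) ∞ M] in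
theorem DI.real (hD : DI M c) (hc : 0 ≤ c) {a b r K d : ℝ} (hab : a ≤ b) (hK : 0 ≤ K)
    (h : RF g (Icc a b) V) (hH : Hs V)
    (h1 : ∀ t ∈ Icc a b, Cpt (g t) V x r ∧ ∀ z ∈ bl (g t) V x r, RicLe (g t) z K) (hd : 0 ≤ d)
    (hy : y ∈ cbl (g b) V x d) {e : ℝ} (he : d + c * √K * (b - a) ≤ e) (hr : e < r) :
    y ∈ cbl (g a) V x e := by
  have h0 : 0 ≤ c * √K * (b - a) := mul_nonneg (by positivity) (sub_nonneg.2 hab)
  have h2 : ed (g b) V x y + ENNReal.ofReal (c * √K * (b - a)) ≤ ENNReal.ofReal e := by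
    refine (add_le_add_left hy _).trans ?_
    rw [← ENNReal.ofReal_add hd h0]
    exact ENNReal.ofReal_le_ofReal he
  exact (hD g V x y a b r K hab hK h hH h1
    (h2.trans_lt ((ENNReal.ofReal_lt_ofReal_iff (by linarith)).2 hr))).trans h2

namespace LV

omit [MeasurableSpace M] [BorelSpace M]

omit [IsManifold 𝓘(ℝ, E3) ∞ M] in
theorem met (h : LV g V x τ) (ht : t ∈ Icc (-τ) 0) : Met (g t) V := h.rf.met ht

theorem le (h : LV g V x τ) (ht : t ∈ Icc (-τ) 0) (hy : y ∈ V) (v : E3) :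
    g 0 y v v ≤ (251 / 250) ^ 2 * g t y v v := by
  have h1 := rf_le_of_ricGe h.rf hy ht.2 (Icc_subset_Icc ht.1 le_rfl) (K := 2) (fun s hs => by
    have hs' : s ∈ Icc (-τ) 0 := ⟨ht.1.trans hs.1.le, hs.2.le⟩
    simpa using ricGe3 finrank_E3 (h.met hs') hy (h.sec s hs' y hy)) v
  refine h1.trans (mul_le_mul_of_nonneg_right ?_ ((met_pd (h.met ht) hy).nonneg v))
  have h2 := h.small
  have h3 : |2 * 2 * (0 - t)| = -4 * t := by rw [abs_of_nonneg] <;> linarith [ht.2]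
  have h4 := Real.abs_exp_sub_one_le (x := 2 * 2 * (0 - t)) (by rw [h3]; linarith [ht.1])
  rw [h3] at h4
  have h5 := (le_abs_self _).trans h4
  have h6 := ht.1
  generalize Real.exp (2 * 2 * (0 - t)) = e at h5
  norm_num
  linarith

theorem cpt' (h : LV g V x τ) (ht : t ∈ Icc (-τ) 0) : Cpt (g t) V x (11 / 12) :=
  cpt_bwd (C := 251 / 250) (by norm_num) ((h.met ⟨by linarith [h.pos], le_rfl⟩).isOpen_bl x 1)
    bl_subset h.hs h.cpt (fun _ hw => h.le ht (bl_subset hw)) h.mem (h.met ht) (by norm_num)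
    (by norm_num)

theorem bdd (h : LV g V x τ) :
    ∃ B, 0 < B ∧ ∀ t ∈ Icc (-τ) 0, ∀ y ∈ bl (g t) V x (11 / 12), Sc (g t) y ≤ B := by
  obtain ⟨B, hB⟩ := ((isCompact_Icc (a := -τ) (b := 0)).prod
    (h.cpt (19 / 20) (by norm_num))).bddAbove_image
    (h.rf.toFam.continuousOn_Sc.mono (prod_mono le_rfl cbl_subset))
  refine ⟨max B 1, by positivity, fun t ht y hy => le_max_of_le_left (hB ⟨(t, y), ⟨ht, ?_⟩, rfl⟩)⟩
  exact ((lt_of_le_mul (C := 251 / 250) (by norm_num) (ed_le_mul (by norm_num)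
    (fun z hz => h.le ht hz) x y) hy).le).trans (ENNReal.ofReal_le_ofReal (by norm_num))

theorem ric (h : LV g V x τ) (ht : t ∈ Icc (-τ) 0) (hy : y ∈ V) {K : ℝ}
    (hK : Sc (g t) y / 2 + 1 ≤ K) : RicLe (g t) y K :=
  (ricLe_sc3 finrank_E3 (h.met ht) hy (h.sec t ht y hy)).mono (met_pd (h.met ht) hy).nonneg hK

end LV

omit [IsManifold 𝓘(ℝ, E3) ∞ M] [MeasurableSpace M] [BorelSpace M] in
/-- a parabolic neighbourhood, rescaled -/
theorem loc_resc {U : Set M} {r σ q : ℝ} (hq : 0 < q) (hm : Met (g t) U) (hH : Hs U) (hy : y ∈ U)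
    (hc : Cpt (g t) U y r) (hr : RF g (Icc (t - σ) t) (bl (g t) U y r))
    (hs : ∀ s ∈ Icc (t - σ) t, ∀ z ∈ bl (g t) U y r, SecGe (g s) z (-(1 / r ^ 2))) :
    Loc (resc g (q ^ 2) t) U y (q * r) (q ^ 2 * σ) := by
  have h0 : resc g (q ^ 2) t 0 = q ^ 2 • g t := by simp [resc]
  have hq2 : 0 < q ^ 2 := by positivity
  have hm' : ∀ s ∈ Icc (-(q ^ 2 * σ)) 0, t + s / q ^ 2 ∈ Icc (t - σ) t := fun s hs =>
    ⟨by have := (le_div_iff₀ hq2).2 (show -σ * q ^ 2 ≤ s by linarith [hs.1]); linarith,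
      by have := div_nonpos_of_nonpos_of_nonneg hs.2 hq2.le; linarith⟩
  refine ⟨h0 ▸ hm.smul hq2, hH, hy, h0 ▸ (cpt_smul hq).2 hc, ?_, fun s hs' z hz => ?_⟩
  · unfold Par
    rw [h0, bl_smul hq, zero_sub]
    exact hr.resc hq2 t hm'
  · rw [h0, bl_smul hq] at hz
    refine (SecGe_smul _ _ hq2 _).2 ?_
    have : q ^ 2 * -(1 / (q * r) ^ 2) = -(1 / r ^ 2) := by
      rcases eq_or_ne r 0 with rfl | hr0
      · simp
      · field_simp
    rw [this]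
    exact hs _ (hm' s hs') z hz

/-- the blow up lemma at a picked point -/
theorem LV.blow (h : LV g V x τ) (hc : 0 ≤ c) (hD : DI M c) (hB : BC M cB) (hw : 0 ≤ w)
    (hA : 0 < A) (hL : BA M (cB * (w / 13)) A) {q r : ℝ} (hq : 0 < q) (hr : 0 < r)
    (hr3 : r ≤ 1 / 3) (ht : r ^ 2 ≤ t + τ) (ht0 : t ≤ 0) (hP : Vl w (g t) V x (1 / 4))
    (hy : y ∈ cbl (g t) V x (1 / 3 - r)) (hqQ : q ^ 2 = Sc (g t) y)
    (h1 : 2 * (1 + 2 * c) * (A + 1) < q * r)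
    (hN : ∀ u ∈ Icc (t - r ^ 2 / 2) t, ∀ z ∈ cbl (g u) V x (1 / 3 - r / 2), Sc (g u) z ≤ 4 * q ^ 2) :
    False := by
  have ha2 : 2 * (A + 1) < q * r := by nlinarith
  have h2 : 6 * (A + 1) ≤ q := by nlinarith
  have hq2 : 0 < q ^ 2 := by positivity
  have hq1 : 1 ≤ q ^ 2 := one_le_pow₀ (by linarith)
  have h3 : A / q ≤ 7 / 12 := (div_le_iff₀ hq).2 (by linarith)
  have h4 : A / q ^ 2 ≤ r ^ 2 / 2 := (div_le_iff₀ hq2).2 (by nlinarith)
  have h5 : 0 < A / q := by positivity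
  have h6 : 0 < A / q ^ 2 := by positivity
  have h7 : √(3 * q ^ 2) ≤ 2 * q := Real.sqrt_le_iff.2 ⟨by positivity, by nlinarith⟩
  have h8 : (1 + 2 * c) * (A / q) < r / 2 := by
    rw [← mul_div_assoc, div_lt_iff₀ hq]; nlinarith
  have h10 : -(1 / (A / q) ^ 2) ≤ -1 := by
    rw [neg_le_neg_iff, le_div_iff₀ (by positivity), one_mul]
    exact pow_le_one₀ h5.le (by linarith)
  have hr2 := sq_nonneg r
  have hI : Icc (t - A / q ^ 2) t ⊆ Icc (-τ) 0 := Icc_subset_Icc (by linarith) ht0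
  have ht' : t ∈ Icc (-τ) 0 := hI ⟨by linarith, le_rfl⟩
  have hxV : y ∈ V := cbl_subset hy
  have hm := h.met ht'
  have hc7 : Cpt (g t) V y (7 / 12) :=
    ((h.cpt' ht').shift hm (by linarith) (by linarith) hy).mono (by linarith)
  have hloc := loc_resc (σ := A / q ^ 2) hq hm h.hs hxV (hc7.mono h3)
    (h.rf.mono hI (hm.isOpen_bl _ _) bl_subset) fun s hs z hz =>
      secGe_mono (h.met (hI hs)) (bl_subset hz) (h.sec s (hI hs) z (bl_subset hz)) h10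
  have e1 : q * (A / q) = A := by field_simp
  have e2 : q ^ 2 * (A / q ^ 2) = A := by field_simp
  have h0 : resc g (q ^ 2) t 0 = q ^ 2 • g t := by simp [resc]
  rw [e1, e2] at hloc
  refine hL _ V y hloc (fun u hu z hz => ?_) ?_ ?_
  · rw [h0, ← e1, bl_smul hq] at hz
    have hu' : t + u / q ^ 2 ∈ Icc (t - A / q ^ 2) t :=
      ⟨by have := div_le_div_of_nonneg_right hu.1 hq2.le; rw [neg_div] at this; linarith,
        by have := div_nonpos_of_nonpos_of_nonneg hu.2 hq2.le; linarith⟩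
    have hJ : Icc (t + u / q ^ 2) t ⊆ Icc (t - A / q ^ 2) t := Icc_subset_Icc hu'.1 le_rfl
    have h9 : c * √(3 * q ^ 2) * (t - (t + u / q ^ 2)) ≤ 2 * c * (A / q) :=
      calc _ ≤ c * (2 * q) * (A / q ^ 2) :=
            mul_le_mul (mul_le_mul_of_nonneg_left h7 hc) (by linarith [hu'.1])
              (by linarith [hu'.2]) (by positivity)
        _ = _ := by field_simp
    have hz' := hD.real hc hu'.2 (K := 3 * q ^ 2) (r := 1 / 3 - r / 2) (by positivity)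
      (h.rf.mono_time (hJ.trans hI)) h.hs (fun v hv => ⟨(h.cpt' (hI (hJ hv))).mono (by linarith),
        fun p hp => h.ric (hI (hJ hv)) (bl_subset hp) (by
          linarith [hN v ⟨by linarith [(hJ hv).1], hv.2⟩ p (bl_subset_cbl hp)])⟩)
      (d := 1 / 3 - r + A / q) (by linarith) (cbl_add (by linarith) h5.le hy (bl_subset_cbl hz))
      (e := 1 / 3 - r + (1 + 2 * c) * (A / q)) (by linarith) (by linarith)
    have := hN _ ⟨by linarith [hu'.1], hu'.2⟩ z (cbl_mono (by linarith) hz')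
    rw [resc, Sc_smul _ _ hq2.ne', inv_mul_le_iff₀ hq2]
    linarith
  · rw [h0, ← e1, vl_smul hm (hc7.mono h3) hq]
    refine hB _ V y _ (7 / 12) _ hm h.hs hc7 (fun z hz => secGe_mono hm (bl_subset hz)
      (h.sec t ht' z (bl_subset hz)) (by norm_num)) (by positivity) h5 h3 ?_
    refine hP.of_sub ?_ (by linarith)
    have hx' : x ∈ cbl (g t) V y (1 / 3 - r) := by
      change ed _ _ _ _ ≤ _
      rw [ed_comm]; exact hy
    exact (bl_add (by linarith) hx').trans (bl_mono (by linarith))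
  · rw [h0, Sc_smul _ _ hq2.ne', ← hqQ, inv_mul_cancel₀ hq2.ne']

theorem pos_of_mul_pos_of_nonneg_right' {a b : ℝ} (h : 0 < a * b) (hb : 0 ≤ b) : 0 < a :=
  pos_of_mul_pos_left h hb

/-- point picking -/
theorem LV.d1 (h : LV g V x τ) (hc : 0 ≤ c) (hD : DI M c) (hB : BC M cB) (hw : 0 ≤ w) (hA : 0 < A)
    (hL : BA M (cB * (w / 13)) A) (hs : s ≤ τ) (hP : ∀ t ∈ Icc (-s) 0, Vl w (g t) V x (1 / 4))
    (hρ : 0 < ρ) (hρ3 : ρ ≤ 1 / 3) (ht : ρ ^ 2 ≤ t + s) (ht0 : t ≤ 0)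
    (hy : y ∈ cbl (g t) V x (1 / 3 - ρ)) :
    Sc (g t) y * ρ ^ 2 ≤ (2 * (1 + 2 * c) * (A + 1)) ^ 2 := by
  by_contra hn
  generalize ha : 2 * (1 + 2 * c) * (A + 1) = a at hn
  obtain ⟨B, -, hB0⟩ := h.bdd
  obtain ⟨⟨tb, xb, r⟩, ⟨hr, hr3, htb, htb0, hxb, hQ⟩, -, hN⟩ := pick
    (X := ℝ × M × ℝ) (c := 4) (B := B) (y := (t, y, ρ))
    (P := fun z => 0 < z.2.2 ∧ z.2.2 ≤ 1 / 3 ∧ z.2.2 ^ 2 ≤ z.1 + s ∧ z.1 ≤ 0 ∧
      z.2.1 ∈ cbl (g z.1) V x (1 / 3 - z.2.2) ∧ a ^ 2 < Sc (g z.1) z.2.1 * z.2.2 ^ 2)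
    (Q := fun z => Sc (g z.1) z.2.1)
    (N := fun z u => u.2.2 = z.2.2 / 2 ∧ u.1 ∈ Icc (z.1 - z.2.2 ^ 2 / 2) z.1 ∧
      u.2.1 ∈ cbl (g u.1) V x (1 / 3 - z.2.2 / 2))
    (by norm_num) ⟨hρ, hρ3, ht, ht0, hy, not_le.1 hn⟩
    (pos_of_mul_pos_of_nonneg_right' ((sq_nonneg a).trans_lt (not_le.1 hn)) (sq_nonneg ρ))
    (fun z hz => hB0 _ ⟨by linarith [hz.2.2.1, sq_nonneg z.2.2], hz.2.2.2.1⟩ _
      (cbl_subset_bl (by norm_num) (by linarith [hz.1]) hz.2.2.2.2.1))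
    (fun z u hz _ hu hlt => ⟨by rw [hu.1]; linarith [hz.1], by rw [hu.1]; linarith [hz.1, hz.2.1],
      by rw [hu.1]; linarith [hu.2.1.1, hz.2.2.1, sq_nonneg z.2.2], hu.2.1.2.trans hz.2.2.2.1,
      by rw [hu.1]; exact hu.2.2, by
        rw [hu.1]; linarith [hz.2.2.2.2.2, mul_lt_mul_of_pos_right hlt (pow_pos hz.1 2)]⟩)
  simp only at hr hr3 htb htb0 hxb hQ hN
  have hQ0 : 0 < Sc (g tb) xb :=
    pos_of_mul_pos_of_nonneg_right' ((sq_nonneg a).trans_lt hQ) (sq_nonneg r)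
  obtain ⟨q, hq, hqQ⟩ : ∃ q, 0 < q ∧ q ^ 2 = Sc (g tb) xb :=
    ⟨√_, Real.sqrt_pos.2 hQ0, Real.sq_sqrt hQ0.le⟩
  rw [← hqQ] at hQ hN
  exact h.blow hc hD hB hw hA hL hq hr hr3 (by linarith) htb0
    (hP tb ⟨by linarith [sq_nonneg r], htb0⟩) hxb hqQ
    (ha ▸ lt_of_pow_lt_pow_left₀ 2 (by positivity) (by rw [mul_pow q]; exact hQ))
    fun u hu z hz => hN (u, z, r / 2) ⟨rfl, hu, hz⟩

omit [MeasurableSpace M] [BorelSpace M] in
/-- integration of the decay of the curvature -/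
theorem LV.d2 (h : LV g V x τ) (hc : 0 ≤ c) (hD : DI M c) {k d : ℝ} (hk : 1 ≤ k) (hs : s ≤ τ)
    (hK : ∀ t ∈ Ioc (-s) 0, ∀ z ∈ cbl (g t) V x (3 / 10), Sc (g t) z * (t + s) ≤ k ^ 2)
    (hτ : 3 * c * k * √τ ≤ 1 / 100) (hd : 0 ≤ d) (hd4 : d ≤ 1 / 4) (hy : y ∈ cbl (g 0) V x d)
    (ht : t ∈ Ioc (-s) 0) : y ∈ cbl (g t) V x (d + 1 / 100) := by
  have hs0 : 0 < s := by linarith [ht.1, ht.2]
  obtain ⟨σ, hσ, rfl⟩ : ∃ σ, 0 < σ ∧ σ ^ 2 = s := ⟨√s, Real.sqrt_pos.2 hs0, Real.sq_sqrt hs0.le⟩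
  have hck : 0 ≤ 3 * c * k := by positivity
  have hσ' : 3 * c * k * σ ≤ 1 / 100 :=
    (mul_le_mul_of_nonneg_left (Real.le_sqrt_of_sq_le hs) hck).trans hτ
  have key : ∀ n : ℕ, ∀ v ∈ Icc (σ / 2 ^ n) σ,
      y ∈ cbl (g (v ^ 2 - σ ^ 2)) V x (d + 3 * c * k * (σ - v)) := by
    intro n
    induction n with
    | zero =>
      intro v hv
      obtain rfl : v = σ := le_antisymm hv.2 (by simpa using hv.1)
      simpa using hy
    | succ n ih =>
      intro v hv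
      have hv0 : 0 < v := lt_of_lt_of_le (by positivity) hv.1
      obtain ⟨u, hu, hvu, hu2⟩ : ∃ u ∈ Icc (σ / 2 ^ n) σ, v ≤ u ∧ u ≤ 2 * v :=
        ⟨min (2 * v) σ, ⟨le_min (by have := hv.1; rw [pow_succ, ← div_div] at this; linarith)
          (div_le_self hσ.le (one_le_pow₀ one_le_two)), min_le_right _ _⟩,
          le_min (by linarith) hv.2, min_le_left _ _⟩
      have h1 : v ^ 2 ≤ u ^ 2 := pow_le_pow_left₀ hv0.le hvu 2
      have h2 : u ^ 2 ≤ σ ^ 2 := pow_le_pow_left₀ (hv0.le.trans hvu) hu.2 2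
      have h3 : 0 < v ^ 2 := by positivity
      have hI : Icc (v ^ 2 - σ ^ 2) (u ^ 2 - σ ^ 2) ⊆ Icc (-τ) 0 :=
        Icc_subset_Icc (by linarith) (by linarith)
      have h4 : 2 ≤ (k / v) ^ 2 := by
        rw [div_pow, le_div_iff₀ h3]; nlinarith [h.small]
      have h5 : c * √((k / v) ^ 2) * (u ^ 2 - σ ^ 2 - (v ^ 2 - σ ^ 2)) ≤ 3 * c * k * (u - v) := by
        rw [Real.sqrt_sq (by positivity)]
        calc _ = c * k * (u - v) * ((u + v) / v) := by field_simp; ring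
          _ ≤ c * k * (u - v) * 3 := mul_le_mul_of_nonneg_left
              ((div_le_iff₀ hv0).2 (by linarith)) (mul_nonneg (by positivity) (by linarith))
          _ = _ := by ring
      have h6 := mul_le_mul_of_nonneg_left (show σ - v ≤ σ by linarith) hck
      refine hD.real hc (by linarith) (K := (k / v) ^ 2) (r := 3 / 10) (by positivity)
        (h.rf.mono_time hI) h.hs (fun p hp => ⟨(h.cpt' (hI hp)).mono (by norm_num),
          fun z hz => h.ric (hI hp) (bl_subset hz) ?_⟩)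
        (add_nonneg hd (mul_nonneg hck (by linarith [hu.2]))) (ih u hu) (by linarith) (by linarith)
      have h7 := hK p ⟨by linarith [hp.1], (hI hp).2⟩ z (bl_subset_cbl hz)
      rcases le_total (Sc (g p) z) 0 with h8 | h8
      · linarith
      · have h9 : Sc (g p) z ≤ (k / v) ^ 2 := by
          rw [div_pow, le_div_iff₀ h3]
          exact (mul_le_mul_of_nonneg_left (by linarith [hp.1]) h8).trans h7
        linarith
  have h1 : 0 < t + σ ^ 2 := by linarith [ht.1]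
  have h2 := Real.sqrt_pos.2 h1
  obtain ⟨n, hn⟩ := pow_unbounded_of_one_lt (σ / √(t + σ ^ 2)) (one_lt_two (α := ℝ))
  have := key n √(t + σ ^ 2) ⟨by
    rw [div_le_iff₀ (by positivity)]; rw [div_lt_iff₀ h2] at hn; linarith,
    Real.sqrt_le_iff.2 ⟨hσ.le, by linarith [ht.2]⟩⟩
  rw [Real.sq_sqrt h1.le, add_sub_cancel_right] at this
  exact cbl_mono (by nlinarith) this

omit [MeasurableSpace M] [BorelSpace M] in
/-- a small step backward with the a priori bound -/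
theorem LV.ext (h : LV g V x τ) (hc : 0 ≤ c) (hD : DI M c) : ∃ η > 0, ∀ s y,
    y ∈ cbl (g 0) V x (1 / 5) → (∀ t ∈ Ioc (-s) 0, y ∈ cbl (g t) V x (1 / 5 + 1 / 100)) →
    ∀ t ∈ Icc (-τ) 0, -s - η ≤ t → y ∈ bl (g t) V x (1 / 4) := by
  obtain ⟨B, hB0, hB⟩ := h.bdd
  have h0 : 0 ≤ c * √(B / 2 + 1) := by positivity
  refine ⟨1 / (200 * (c * √(B / 2 + 1) + 1)), by positivity, fun s y hy h1 t ht hst => ?_⟩
  set η := 1 / (200 * (c * √(B / 2 + 1) + 1)) with hη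
  have hη0 : 0 < η := by positivity
  have h2 : c * √(B / 2 + 1) * (2 * η) ≤ 1 / 100 := by
    rw [hη, mul_one_div, ← mul_div_assoc, div_le_iff₀ (by positivity)]; linarith
  obtain ⟨b, htb, hb0, hb, hyb⟩ : ∃ b, t ≤ b ∧ b ≤ 0 ∧ b - t ≤ 2 * η ∧
      y ∈ cbl (g b) V x (1 / 5 + 1 / 100) := by
    rcases le_total (t + 2 * η) 0 with h3 | h3
    · exact ⟨t + 2 * η, by linarith, h3, by linarith, h1 _ ⟨by linarith, h3⟩⟩
    · exact ⟨0, ht.2, le_rfl, by linarith, cbl_mono (by norm_num) hy⟩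
  have hI : Icc t b ⊆ Icc (-τ) 0 := Icc_subset_Icc ht.1 hb0
  exact cbl_subset_bl (by norm_num) (show (22 / 100 : ℝ) < 1 / 4 by norm_num)
    (hD.real hc htb (K := B / 2 + 1) (r := 1 / 4) (by positivity) (h.rf.mono_time hI) h.hs
      (fun p hp => ⟨(h.cpt' (hI hp)).mono (by norm_num), fun z hz => h.ric (hI hp) (bl_subset hz)
        (by linarith [hB p (hI hp) z (bl_mono (by norm_num) hz)])⟩) (by norm_num) hyb
      (by linarith [mul_le_mul_of_nonneg_left hb h0]) (by norm_num))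

theorem LV.vl (h : LV g V x τ) (hB : BC M cB) (hcB : 0 ≤ cB) (hw : 0 ≤ w) (hv : Vl w (g 0) V x 1)
    (ht : t ∈ Icc (-τ) 0) (hs : bl (g 0) V x (1 / 5) ⊆ bl (g t) V x (1 / 4)) :
    Vl (cB / 2 * w) (g t) V x (1 / 4) := by
  have h0 : (0 : ℝ) ∈ Icc (-τ) 0 := ⟨by linarith [h.pos], le_rfl⟩
  have hm := h.met h0
  have h1 : Vl (cB * w) (g 0) V x (1 / 5) := hB _ V x w 1 _ hm h.hs h.cpt
    (fun z hz => by simpa using h.sec 0 h0 z (bl_subset hz)) hw (by norm_num) (by norm_num) hv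
  have h2 := vol_le_mul (h.cpt (1 / 5) (by norm_num)).isLindelof
    (hm.isOpen_bl x (1 / 5)).measurableSet bl_subset_cbl (c := 251 / 250) (by norm_num)
    (fun z hz => met_pd hm (bl_subset hz)) (fun z hz => met_pd (h.met ht) (bl_subset hz))
    fun z hz => h.le ht (bl_subset hz)
  rw [finrank_E3] at h2
  have h3 := (le_trans h1 h2).trans (mul_le_mul_right (measure_mono hs) _)
  refine (ENNReal.mul_le_mul_iff_right (a := ENNReal.ofReal ((251 / 250) ^ 3)) (by simp)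
    ENNReal.ofReal_ne_top).1 (le_trans ?_ h3)
  rw [← ENNReal.ofReal_mul (by norm_num)]
  exact ENNReal.ofReal_le_ofReal (by nlinarith [mul_nonneg hcB hw])

theorem LV.main (h : LV g V x τ) (hc : 0 ≤ c) (hD : DI M c) (hB : BC M cB) (hcB : 0 ≤ cB)
    (hw : 0 ≤ w) (hA : 0 < A) (hL : BA M (cB * (cB / 2 * w / 13)) A) (hv : Vl w (g 0) V x 1)
    {k : ℝ} (hk : 2 * (1 + 2 * c) * (A + 1) = k) (hτ : 3 * c * k * √τ ≤ 1 / 100) :
    (∀ t ∈ Ioc (-τ) 0, ∀ y ∈ bl (g 0) V x (1 / 4), Sc (g t) y * (t + τ) ≤ k ^ 2) ∧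
    ∀ t ∈ Icc (-τ) 0, bl (g 0) V x (1 / 5) ⊆ bl (g t) V x (1 / 4) ∧
      Vl (cB / 2 * w) (g t) V x (1 / 4) := by
  have hk1 : 1 ≤ k := by nlinarith
  have k1 : ∀ s ≤ τ, (∀ t ∈ Icc (-s) 0, Vl (cB / 2 * w) (g t) V x (1 / 4)) →
      ∀ t ∈ Ioc (-s) 0, ∀ z ∈ cbl (g t) V x (3 / 10), Sc (g t) z * (t + s) ≤ k ^ 2 :=
    fun s hs hP t ht z hz => by
      have h1 : 0 < t + s := by linarith [ht.1]
      have h2 : √(t + s) ≤ 1 / 30 := Real.sqrt_le_iff.2 ⟨by norm_num, by linarith [ht.2, h.small]⟩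
      have := h.d1 hc hD hB (by positivity) hA hL hs hP (Real.sqrt_pos.2 h1) (by linarith)
        (Real.sq_sqrt h1.le).le ht.2 (cbl_mono (by linarith) hz)
      rwa [Real.sq_sqrt h1.le, hk] at this
  obtain ⟨η, hη, hE⟩ := h.ext hc hD
  have k2 : ∀ n : ℕ, ∀ t ∈ Icc (-τ) 0, -(n * η) ≤ t →
      bl (g 0) V x (1 / 5) ⊆ bl (g t) V x (1 / 4) := by
    intro n
    induction n with
    | zero =>
      intro t ht h0
      obtain rfl : t = 0 := le_antisymm ht.2 (by simpa using h0)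
      exact bl_mono (by norm_num)
    | succ n ih =>
      intro t ht h0 y hy
      have hs := min_le_right (n * η) τ
      have hs' := min_le_left (n * η) τ
      refine hE (min (n * η) τ) y (bl_subset_cbl hy) (fun u hu => h.d2 hc hD hk1 hs
        (k1 _ hs fun p hp => h.vl hB hcB hw hv ⟨by linarith [hp.1], hp.2⟩
          (ih p ⟨by linarith [hp.1], hp.2⟩ (by linarith [hp.1]))) hτ (by norm_num) (by norm_num)
        (bl_subset_cbl hy) hu) t ht ?_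
      push_cast at h0
      rcases min_choice (n * η) τ with e | e <;> rw [e] <;> linarith [ht.1]
  obtain ⟨n, hn⟩ := exists_nat_ge (τ / η)
  have k3 : ∀ t ∈ Icc (-τ) 0, bl (g 0) V x (1 / 5) ⊆ bl (g t) V x (1 / 4) := fun t ht =>
    k2 n t ht (by linarith [(div_le_iff₀ hη).1 hn, ht.1])
  have k4 := k1 τ le_rfl fun t ht => h.vl hB hcB hw hv ht (k3 t ht)
  exact ⟨fun t ht y hy => k4 t ht y (cbl_mono (by norm_num) (h.d2 hc hD hk1 le_rfl k4 hτ
    (by norm_num) le_rfl (bl_subset_cbl hy) ht)), fun t ht => ⟨k3 t ht, h.vl hB hcB hw hv ht (k3 t ht)⟩⟩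

/-- **DEC** -/
theorem dec (hL : BL) (hD : DIST) (hB : BGC) : DEC := by
  obtain ⟨c, hc, hD⟩ := hD
  obtain ⟨cB, hcB, hB⟩ := hB
  refine ⟨cB / 2, by positivity, fun w hw => ?_⟩
  obtain ⟨A, hA, hL⟩ := hL (cB * (cB / 2 * w / 13)) (by positivity)
  obtain ⟨k, hk⟩ : ∃ k, 2 * (1 + 2 * c) * (A + 1) = k := ⟨_, rfl⟩
  have hk0 : 0 < k := by rw [← hk]; positivity
  refine ⟨(1 / (300 * (c * k + 1))) ^ 2, by positivity, k ^ 2, by positivity,
    fun M _ _ _ _ _ g U x r τ hr hτ hτ' h hv => ?_⟩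
  obtain ⟨q, hq, hqr⟩ : ∃ q, 0 < q ∧ q * r = 1 := ⟨r⁻¹, by positivity, by field_simp⟩
  have hq2 : 0 < q ^ 2 := by positivity
  have hl := loc_resc (t := 0) hq h.met h.hs h.mem h.cpt h.par (by simpa using h.sec)
  have hG : ∀ t, resc g (q ^ 2) 0 (q ^ 2 * t) = q ^ 2 • g t := fun t => by
    rw [resc, zero_add, mul_div_cancel_left₀ _ hq2.ne']
  have h0 : resc g (q ^ 2) 0 0 = q ^ 2 • g 0 := by simpa using hG 0
  have hτ1 : q ^ 2 * τ ≤ (1 / (300 * (c * k + 1))) ^ 2 :=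
    calc _ ≤ q ^ 2 * ((1 / (300 * (c * k + 1))) ^ 2 * r ^ 2) := by gcongr
      _ = (1 / (300 * (c * k + 1))) ^ 2 * (q * r) ^ 2 := by ring
      _ = _ := by rw [hqr]; ring
  have hτ2 : √(q ^ 2 * τ) ≤ 1 / (300 * (c * k + 1)) := Real.sqrt_le_iff.2 ⟨by positivity, hτ1⟩
  have hτ3 : 1 / (300 * (c * k + 1)) ≤ 1 / 300 :=
    one_div_le_one_div_of_le (by norm_num) (by nlinarith [mul_pos hc hk0])
  have hV : bl (resc g (q ^ 2) 0 0) U x (q * r) = bl (g 0) U x r := by rw [h0, bl_smul hq]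
  have hV' : bl (resc g (q ^ 2) 0 0) U x 1 = bl (g 0) U x r := by rw [← hV, hqr]
  rw [hqr] at hl
  have hlv : LV (resc g (q ^ 2) 0) (bl (g 0) U x r) x (q ^ 2 * τ) :=
    ⟨by simpa [Par, hV'] using hl.par, h.hs.mono bl_subset, mem_bl_self h.mem hr,
      hl.cpt.restrict hV'.subset bl_subset one_pos,
      fun t ht y hy => by simpa using hl.sec t ht y (hV' ▸ hy), by positivity,
      hτ1.trans ((pow_le_pow_left₀ (by positivity) hτ3 2).trans (by norm_num))⟩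
  have hb : ∀ ρ ≤ r, bl (resc g (q ^ 2) 0 0) (bl (g 0) U x r) x (q * ρ) = bl (g 0) U x ρ :=
    fun ρ hρ => by rw [h0, bl_smul hq, bl_eq_of_bl Subset.rfl bl_subset hρ]
  obtain ⟨m1, m2⟩ := hlv.main hc.le (hD M) (hB M) hcB.le hw.le hA (hL M) (by
      have := (vl_smul h.met h.cpt hq).2 hv
      unfold Vl at this ⊢
      rwa [← hqr, hb r le_rfl, h0, ← bl_smul hq]) hk (by
      refine (mul_le_mul_of_nonneg_left hτ2 (by positivity)).trans ?_
      rw [mul_one_div, div_le_iff₀ (by positivity)]; linarith)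
  have e4 : 1 / 4 = q * (r / 4) := by linarith
  have e5 : 1 / 5 = q * (r / 5) := by linarith
  refine ⟨fun t ht y hy => ?_, fun t ht => ?_⟩
  · have := m1 (q ^ 2 * t) ⟨by nlinarith [ht.1], by nlinarith [ht.2]⟩ y
      (by rwa [e4, hb _ (by linarith)])
    rw [hG, Sc_smul _ _ hq2.ne', ← mul_add] at this
    rw [le_div_iff₀ (by linarith [ht.1])]
    refine le_of_eq_of_le ?_ this
    field_simp
  · have ht' : q ^ 2 * t ∈ Icc (-(q ^ 2 * τ)) 0 := ⟨by nlinarith [ht.1], by nlinarith [ht.2]⟩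
    obtain ⟨n1, n2⟩ := m2 _ ht'
    have hc4 := (hlv.cpt' ht').mono (show 1 / 4 ≤ 11 / 12 by norm_num)
    rw [hG, e4] at n1 n2 hc4
    rw [e5, hb _ (by linarith), bl_smul hq] at n1
    exact ⟨n1, (vl_smul (RF.met h.par (by simpa using ht)) ((cpt_smul hq).1 hc4) hq).1 n2⟩

end Vale.Agent.P216CP
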