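import Vale.Agent.P216CP.NB
import Vale.Agent.P216CP.Stm
import Vale.Agent.P216B.Top

/-!
# P216CP/HR: local Hopf-Rinow, regularity and uniqueness of minimisers
-/

open scoped Manifold ContDiff Topology ENNReal
open Set Filter
open Vale.Agent.P219.RG Vale.Agent.P216R

noncomputable section

set_option maxSynthPendingDepth 3

namespace Vale.Agent.P216CP

variable {E : Type} [NormedAddCommGroup E] [NormedSpace ℝ E]
variable {M : Type} [TopologicalSpace M] [ChartedSpace E M]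
variable {g : Ten E M} {U : Set M} {γ : ℝ → M} {s : Set ℝ} {t a b r L δ : ℝ} {p x y z : M}
  {v w : E}

theorem ed_le_add (h1 : ed g U x y ≤ ENNReal.ofReal a) (h2 : ed g U y z ≤ ENNReal.ofReal b)
    (ha : 0 ≤ a) (hb : 0 ≤ b) : ed g U x z ≤ ENNReal.ofReal (a + b) := by
  rw [ENNReal.ofReal_add ha hb]
  exact (ed_triangle x y z).trans (add_le_add h1 h2)

theorem sub_le_ed (h1 : ENNReal.ofReal a ≤ ed g U x z) (h2 : ed g U x y ≤ ENNReal.ofReal b)
    (hb : 0 ≤ b) : ENNReal.ofReal (a - b) ≤ ed g U y z := by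
  rw [ENNReal.ofReal_sub _ hb, tsub_le_iff_left]
  exact h1.trans ((ed_triangle x y z).trans (add_le_add h2 le_rfl))

theorem sub_le_ed' (h1 : ENNReal.ofReal a ≤ ed g U x z) (h2 : ed g U y z ≤ ENNReal.ofReal b)
    (hb : 0 ≤ b) : ENNReal.ofReal (a - b) ≤ ed g U x y := by
  rw [ed_comm] at h1 h2 ⊢
  exact sub_le_ed h1 h2 hb

theorem ed_eq_dd (h : ed g U x y ≠ ⊤) : ed g U x y = ENNReal.ofReal (dd g U x y) :=
  (ENNReal.ofReal_toReal h).symm

theorem dd_eq_of (h : ed g U x y = ENNReal.ofReal a) (ha : 0 ≤ a) : dd g U x y = a := by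
  rw [dd, h, ENNReal.toReal_ofReal ha]

theorem ne_top_of_bl (h : y ∈ bl g U x r) : ed g U x y ≠ ⊤ := ne_top_of_lt h

theorem dd_lt_of_bl (h : y ∈ bl g U x r) : dd g U x y < r :=
  ENNReal.toReal_lt_of_lt_ofReal h

theorem mem_of_bl (h : y ∈ bl g U x r) : x ∈ U ∧ y ∈ U := mem_of_ed_ne (ne_top_of_bl h)

theorem minGeo_isGeo (h : MinGeo g U γ L) : ∃ ε > 0, IsGeo g U γ (Ioo (-ε) (L + ε)) := by
  obtain ⟨ε, hε, h1, h2⟩ := h.geo
  exact ⟨ε, hε, h1, h2⟩

theorem minGeo_ed (h : MinGeo g U γ L) : ed g U (γ 0) (γ L) = ENNReal.ofReal L := by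
  rw [h.min 0 ⟨le_rfl, h.nonneg⟩ L ⟨h.nonneg, le_rfl⟩, zero_sub, abs_neg, abs_of_nonneg h.nonneg]

theorem minGeo_ed' (h : MinGeo g U γ L) (ht : t ∈ Icc 0 L) :
    ed g U (γ 0) (γ t) = ENNReal.ofReal t := by
  rw [h.min 0 ⟨le_rfl, h.nonneg⟩ t ht, zero_sub, abs_neg, abs_of_nonneg ht.1]

theorem minGeo_dd (h : MinGeo g U γ L) (ha : a ∈ Icc 0 L) (hb : b ∈ Icc 0 L) :
    dd g U (γ a) (γ b) = |a - b| := dd_eq_of (h.min a ha b hb) (abs_nonneg _)

theorem minGeo_mem (h : MinGeo g U γ L) (ht : t ∈ Icc 0 L) : γ t ∈ U := by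
  obtain ⟨ε, hε, h1⟩ := minGeo_isGeo h
  exact h1.mem t ⟨by linarith [ht.1], by linarith [ht.2]⟩

theorem minGeo_sp (h : MinGeo g U γ L) (ht : t ∈ Icc 0 L) :
    g (γ t) (vel E γ t) (vel E γ t) = 1 := Real.sqrt_eq_one.1 (h.unit t ht)

theorem minGeo_vel (h : MinGeo g U γ L) (ht : t ∈ Icc 0 L) : vel E γ t = dv γ t := by
  obtain ⟨ε, hε, h1⟩ := minGeo_isGeo h
  exact h1.vel_eq isOpen_Ioo ⟨by linarith [ht.1], by linarith [ht.2]⟩

/-- reparametrisation `t ↦ k t + c` with `k = ± 1` -/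
theorem minGeo_affine (h : MinGeo g U γ L) {k c L' : ℝ} (hk : k ^ 2 = 1) (hL : 0 ≤ L')
    (hm : ∀ t ∈ Icc 0 L', k * t + c ∈ Icc 0 L) :
    MinGeo g U (fun t => γ (k * t + c)) L' ∧
      ∀ t ∈ Icc 0 L', vel E (fun t => γ (k * t + c)) t = k • vel E γ (k * t + c) := by
  obtain ⟨ε, hε, h1⟩ := minGeo_isGeo h
  have hk' : |k| = 1 := by rw [← sq_eq_sq₀ (abs_nonneg k) zero_le_one, sq_abs, hk, one_pow]
  have h0 := hm 0 ⟨le_rfl, hL⟩
  have h0' := hm L' ⟨hL, le_rfl⟩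
  have h2 : IsGeo g U (fun t => γ (k * t + c)) (Ioo (-ε) (L' + ε)) := by
    refine (h1.comp_affine k c).mono fun t ht => ?_
    rcases (abs_eq zero_le_one).1 hk' with rfl | rfl
    · exact ⟨by linarith [ht.1, h0.1], by linarith [ht.2, h0'.2]⟩
    · exact ⟨by linarith [ht.2, h0'.1], by linarith [ht.1, h0.2]⟩
  have h3 : ∀ t ∈ Icc 0 L', vel E (fun t => γ (k * t + c)) t = k • vel E γ (k * t + c) := by
    intro t ht
    rw [h2.vel_eq isOpen_Ioo ⟨by linarith [ht.1], by linarith [ht.2]⟩, dv_affine,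
      minGeo_vel h (hm t ht)]
  refine ⟨⟨hL, ⟨ε, hε, h2.toGeo, h2.mem⟩, fun t ht => ?_, fun a ha b hb => ?_⟩, h3⟩
  · rw [spd, h3 t ht, sqrt_smul, hk', one_mul]; exact h.unit _ (hm t ht)
  · rw [h.min _ (hm a ha) _ (hm b hb), add_sub_add_right_eq_sub, ← mul_sub, abs_mul, hk', one_mul]

theorem minGeo_mono (h : MinGeo g U γ L) (h0 : 0 ≤ a) (ha : a ≤ L) : MinGeo g U γ a := by
  simpa using (minGeo_affine h (k := 1) (c := 0) (by norm_num) h0 fun t ht =>
    ⟨by linarith [ht.1], by linarith [ht.2]⟩).1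

theorem minGeo_rev (h : MinGeo g U γ L) : MinGeo g U (fun t => γ (L - t)) L ∧
    ∀ t ∈ Icc 0 L, vel E (fun t => γ (L - t)) t = -vel E γ (L - t) := by
  simpa [← sub_eq_neg_add] using minGeo_affine h (k := -1) (c := L) (by norm_num) h.nonneg
    fun t ht => ⟨by linarith [ht.2], by linarith [ht.1]⟩

theorem minGeo_shift (h : MinGeo g U γ L) (h0 : 0 ≤ a) (hab : a ≤ b) (hb : b ≤ L) :
    MinGeo g U (fun t => γ (t + a)) (b - a) ∧
      ∀ t ∈ Icc 0 (b - a), vel E (fun t => γ (t + a)) t = vel E γ (t + a) := by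
  simpa using minGeo_affine h (k := 1) (c := a) (L' := b - a) (by norm_num) (by linarith)
    fun t ht => ⟨by linarith [ht.1], by linarith [ht.2]⟩

variable [FiniteDimensional ℝ E] [IsManifold 𝓘(ℝ, E) ∞ M]

theorem minGeo_eq_ray (hg : Met g U) (hH : Hs U) (h : MinGeo g U γ L) (ht : t ∈ Icc 0 L) :
    t ∈ Life g U (γ 0) (vel E γ 0) ∧ ray g U (γ 0) (vel E γ 0) t = γ t := by
  obtain ⟨ε, hε, h1⟩ := minGeo_isGeo h
  have := h1.eq_ray hg hH isOpen_Ioo ordConnected_Ioo (c := 0) (t := t)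
    ⟨by linarith, by linarith [h.nonneg]⟩ ⟨by linarith [ht.1], by linarith [ht.2]⟩
  rwa [add_zero, ← minGeo_vel h ⟨le_rfl, h.nonneg⟩] at this

theorem ed_ray_unit (hg : Met g U) (hH : Hs U) (hv : g p v v = 1) (ha : a ∈ Life g U p v)
    (hb : b ∈ Life g U p v) :
    ed g U (ray g U p v a) (ray g U p v b) ≤ ENNReal.ofReal |a - b| := by
  simpa [hv] using ed_ray_le hg hH ha hb

theorem minGeo_ray (hg : Met g U) (hH : Hs U) (hv : g p v v = 1) (h0 : 0 ≤ L)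
    (hL : L ∈ Life g U p v) (hd : ENNReal.ofReal L ≤ ed g U p (ray g U p v L)) :
    MinGeo g U (ray g U p v) L := by
  have hI := Icc_subset_Life hL
  have hz := zero_mem_Tm_of hL
  obtain ⟨ε₁, h1, h1'⟩ := Metric.mem_nhds_iff.1 (isOpen_Life.mem_nhds hz)
  obtain ⟨ε₂, h2, h2'⟩ := Metric.mem_nhds_iff.1 (isOpen_Life.mem_nhds hL)
  have hε : 0 < min ε₁ ε₂ := lt_min h1 h2
  have hs : Ioo (-min ε₁ ε₂) (L + min ε₁ ε₂) ⊆ Life g U p v := by
    intro t ht
    rcases le_total t 0 with h | h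
    · exact h1' (by rw [Real.ball_eq_Ioo]; exact ⟨by linarith [ht.1, min_le_left ε₁ ε₂], by linarith⟩)
    rcases le_total t L with h' | h'
    · exact hI ⟨h, h'⟩
    · exact h2' (by
        rw [Real.ball_eq_Ioo]; exact ⟨by linarith, by linarith [ht.2, min_le_right ε₁ ε₂]⟩)
  have h3 := (isGeo_ray hg hH).mono hs
  refine ⟨h0, ⟨_, hε, h3.toGeo, h3.mem⟩, fun t ht => ?_, fun a ha b hb => ?_⟩
  · rw [spd_ray hg hH (hI ht), hv, Real.sqrt_one]
  refine le_antisymm (ed_ray_unit hg hH hv (hI ha) (hI hb)) ?_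
  wlog hab : a ≤ b generalizing a b
  · rw [ed_comm, abs_sub_comm]; exact this b hb a ha (not_le.1 hab).le
  have e1 := ed_ray_unit hg hH hv hz (hI ha)
  have e2 := ed_ray_unit hg hH hv (hI hb) hL
  rw [ray_zero hg hH] at e1
  refine le_trans (ENNReal.ofReal_le_ofReal ?_)
    (sub_le_ed' (sub_le_ed hd e1 (abs_nonneg _)) e2 (abs_nonneg _))
  rw [zero_sub, abs_neg, abs_of_nonneg ha.1, abs_of_nonpos (sub_nonpos.2 hab),
    abs_of_nonpos (sub_nonpos.2 hb.2)]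
  linarith

theorem Nb.exists_unit (h : Nb g U p r) (hg : Met g U) (hH : Hs U) (hδ : 0 < δ) (hr : δ < r)
    (hz : ed g U p z = ENNReal.ofReal δ) :
    ∃ w, g p w w = 1 ∧ δ • w ∈ tb (g p) r ∧ δ ∈ Life g U p w ∧ ray g U p w δ = z := by
  obtain ⟨v, hv, e1, e2⟩ := h.exists_of_lt hg hH (z := z)
    (hz ▸ (ENNReal.ofReal_lt_ofReal_iff h.pos).2 hr)
  have e3 : √(g p v v) = δ :=
    ((ENNReal.ofReal_eq_ofReal_iff hδ.le (Real.sqrt_nonneg _)).1 (hz ▸ e2)).symm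
  have e4 : δ • δ⁻¹ • v = v := smul_inv_smul₀ hδ.ne' v
  have e5 : δ ∈ Life g U p (δ⁻¹ • v) := (smul_mem_Dom hg hH).1 (by rw [e4]; exact h.sub hv)
  refine ⟨δ⁻¹ • v, Real.sqrt_eq_one.1 ?_, by rwa [e4], e5, by rw [← expo_smul hg hH e5, e4, e1]⟩
  rw [sqrt_smul, e3, abs_of_pos (inv_pos.2 hδ), inv_mul_cancel₀ hδ.ne']

/-- the first step towards `y` -/
theorem Nb.exists_step (h : Nb g U p r) (hg : Met g U) (hH : Hs U)
    (hL : ed g U p y = ENNReal.ofReal L) (hδ : 0 < δ) (hr : δ < r) (hδL : δ ≤ L) :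
    ∃ w, g p w w = 1 ∧ δ ∈ Life g U p w ∧
      ed g U (ray g U p w δ) y = ENNReal.ofReal (L - δ) := by
  have hK := hg.isCompact_ge (h.cpt hg hH δ hr) p (ENNReal.ofReal δ)
  obtain ⟨z₀, h0, -⟩ := exists_mid_real hL hδ.le hδL one_pos
  obtain ⟨z, hz, hmin⟩ := hK.exists_isMinOn ⟨z₀, h0.le, h0.ge⟩
    ((hg.continuousOn_ed y).mono (inter_subset_left.trans cbl_subset))
  have hz' : ed g U p z = ENNReal.ofReal δ := le_antisymm hz.1 hz.2
  obtain ⟨w, h1, -, h2, h3⟩ := h.exists_unit hg hH hδ hr hz'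
  refine ⟨w, h1, h2, le_antisymm ?_ (h3 ▸ sub_le_ed hL.ge hz'.le hδ.le)⟩
  refine ENNReal.le_of_forall_pos_le_add fun ε hε _ => ?_
  obtain ⟨z', e1, e2⟩ := exists_mid_real hL hδ.le hδL (ε := ε) hε
  rw [h3, ed_comm, ← ENNReal.ofReal_coe_nnreal, ← ENNReal.ofReal_add (by linarith) ε.coe_nonneg]
  exact (hmin ⟨e1.le, e1.ge⟩).trans (ed_comm.trans_le e2)

theorem ray_add (hg : Met g U) (hH : Hs U) (ha : a ∈ Life g U p v) (ht : t + a ∈ Life g U p v) :
    t ∈ Life g U (ray g U p v a) (dv (ray g U p v) a) ∧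
      ray g U (ray g U p v a) (dv (ray g U p v) a) t = ray g U p v (t + a) :=
  (isGeo_ray hg hH).eq_ray hg hH isOpen_Life ordConnected_Life ha ht

theorem ray_sub (hg : Met g U) (hH : Hs U) (ha : a ∈ Life g U p v) (ht : a - t ∈ Life g U p v) :
    ray g U (ray g U p v a) (-dv (ray g U p v) a) t = ray g U p v (a - t) := by
  have h1 := ray_add hg hH ha (t := -1 * t) (by rwa [neg_one_mul, neg_add_eq_sub])
  rw [← neg_one_smul ℝ (dv (ray g U p v) a), ray_smul hg hH h1.1, h1.2, neg_one_mul, neg_add_eq_sub]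

/-- if a minimising curve arrives at `ray p v a` along the ray, it leaves along the ray -/
theorem eq_dv_of_min (hg : Met g U) (hH : Hs U) (hv : g p v v = 1) (ha : a ∈ Life g U p v)
    (h0 : 0 < a) (hw : g (ray g U p v a) w w = 1) (hb : b ∈ Life g U (ray g U p v a) w)
    (hb0 : 0 < b) (h : ENNReal.ofReal (a + b) ≤ ed g U p (ray g U (ray g U p v a) w b)) :
    w = dv (ray g U p v) a := by
  have hm := (isGeo_ray hg hH).mem a ha
  have h1 : g (ray g U p v a) (dv (ray g U p v) a) (dv (ray g U p v) a) = 1 :=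
    (sp_ray hg hH ha).trans hv
  have := no_corner hg hH hm (v := -dv (ray g U p v) a) (by simpa using h1) hw
    (Eventually.frequently ?_)
  · rwa [neg_neg] at this
  filter_upwards [Ioo_mem_nhdsGT (lt_min h0 hb0)] with ε hε
  have e1 : ε < a := hε.2.trans_le (min_le_left _ _)
  have e2 : ε < b := hε.2.trans_le (min_le_right _ _)
  have e3 : a - ε ∈ Life g U p v := Icc_subset_Life ha ⟨by linarith, by linarith [hε.1]⟩
  have e4 := ed_ray_unit hg hH hv (zero_mem_Tm_of ha) e3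
  have e5 := ed_ray_unit hg hH hw (Icc_subset_Life hb ⟨hε.1.le, e2.le⟩) hb
  rw [ray_zero hg hH] at e4
  rw [ray_sub hg hH ha e3]
  refine le_trans (ENNReal.ofReal_le_ofReal ?_)
    (sub_le_ed' (sub_le_ed h e4 (abs_nonneg _)) e5 (abs_nonneg _))
  rw [zero_sub, abs_neg, abs_of_pos (by linarith), abs_of_neg (by linarith)]
  linarith

/-- a ray that is aimed at `y` reaches `y` -/
theorem prolong (hg : Met g U) (hH : Hs U) (hv : g x v v = 1)
    (hL : ed g U x y = ENNReal.ofReal L) (hl : L ∈ Life g U x v) (hδ : 0 < δ) (hδL : δ ≤ L)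
    (h : ed g U (ray g U x v δ) y ≤ ENNReal.ofReal (L - δ)) : ray g U x v L = y := by
  have hI := Icc_subset_Life hl
  have hy := (mem_of_ed_ne (hL ▸ ENNReal.ofReal_ne_top)).2
  set A : Set ℝ := Icc δ L ∩ {t | ed g U y (ray g U x v t) ≤ ENNReal.ofReal (L - t)} with hA
  have hc : ContinuousOn (fun t => ed g U y (ray g U x v t)) (Icc δ L) := fun t ht =>
    (ContinuousAt.comp (hg.continuousAt_ed_right y
      ((isGeo_ray hg hH).mem t (hI ⟨hδ.le.trans ht.1, ht.2⟩)))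
      ((isGeo_ray hg hH).contAt isOpen_Life (hI ⟨hδ.le.trans ht.1, ht.2⟩))).continuousWithinAt
  have hAc : IsCompact A := isCompact_Icc.of_isClosed_subset
    (isClosed_Icc.isClosed_le hc (ENNReal.continuous_ofReal.comp
      (continuous_const.sub continuous_id)).continuousOn) inter_subset_left
  obtain ⟨T, hT, hmax⟩ := hAc.exists_isGreatest ⟨δ, ⟨le_rfl, hδL⟩, ed_comm.trans_le h⟩
  have hT0 : 0 < T := hδ.trans_le hT.1.1
  have hTl : T ∈ Life g U x v := hI ⟨hT0.le, hT.1.2⟩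
  rcases hT.1.2.eq_or_lt with rfl | hlt
  · have h1 : ed g U y (ray g U x v T) ≤ ENNReal.ofReal (T - T) := hT.2
    rw [sub_self, ENNReal.ofReal_zero, nonpos_iff_eq_zero] at h1
    exact (hg.eq_of_ed hH h1).symm
  exfalso
  have e0 := ed_ray_unit hg hH hv (zero_mem_Tm_of hl) hTl
  rw [ray_zero hg hH, zero_sub, abs_neg, abs_of_pos hT0] at e0
  have h1 : ed g U (ray g U x v T) y = ENNReal.ofReal (L - T) :=
    le_antisymm (ed_comm.trans_le hT.2) (sub_le_ed hL.ge e0 hT0.le)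
  obtain ⟨r, hr⟩ := exists_nb hg hH ((isGeo_ray hg hH).mem T hTl)
  set η := min (r / 2) (L - T) with hη
  have hη0 : 0 < η := lt_min (half_pos hr.pos) (by linarith)
  have hη1 : η ≤ L - T := min_le_right _ _
  obtain ⟨w, w1, w2, w3⟩ := hr.exists_step hg hH h1 hη0
    ((min_le_left _ _).trans_lt (half_lt_self hr.pos)) hη1
  have h2 := eq_dv_of_min hg hH hv hTl hT0 w1 w2 hη0
    (le_trans (ENNReal.ofReal_le_ofReal (by linarith)) (sub_le_ed' hL.ge w3.le (by linarith)))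
  rw [h2, (ray_add hg hH hTl (hI ⟨by linarith, by linarith⟩)).2] at w3
  have h3 : η + T ∈ A := ⟨⟨by linarith [hT.1.1], by linarith⟩,
    ed_comm.trans_le (w3.le.trans (ENNReal.ofReal_le_ofReal (by linarith)))⟩
  linarith [hmax h3]

/-- local Hopf-Rinow, with the initial vector -/
theorem exists_ray (hg : Met g U) (hH : Hs U) {R : ℝ} (hc : Cpt g U x R)
    (hL : ed g U x y = ENNReal.ofReal L) (h0 : 0 < L) (hR : L < R) :
    ∃ v, g x v v = 1 ∧ L ∈ Life g U x v ∧ ray g U x v L = y := by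
  have hx := (mem_of_ed_ne (hL ▸ ENNReal.ofReal_ne_top)).1
  obtain ⟨r, hr⟩ := exists_nb hg hH hx
  have hη0 : 0 < min (r / 2) L := lt_min (half_pos hr.pos) h0
  obtain ⟨w, w1, -, w3⟩ := hr.exists_step hg hH hL hη0
    ((min_le_left _ _).trans_lt (half_lt_self hr.pos)) (min_le_right _ _)
  have hl : L ∈ Life g U x w :=
    mem_Life_of_cpt hg hH hc hx (by rwa [w1, Real.sqrt_one, mul_one, abs_of_pos h0])
  exact ⟨w, w1, hl, prolong hg hH w1 hL hl hη0 (min_le_right _ _) w3.le⟩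

/-- the exponential map is onto the ball, by vectors whose length is the distance -/
theorem exists_expo (hg : Met g U) (hH : Hs U) {R : ℝ} (hc : Cpt g U x R) (hy : y ∈ bl g U x R) :
    ∃ v ∈ tb (g x) R, expo g U x v = y ∧ √(g x v v) = dd g U x y := by
  have hx := (mem_of_bl hy).1
  rcases eq_or_ne x y with rfl | hne
  · exact ⟨0, zero_mem_tb _ (pos_of_mem_bl hy), expo_zero hg hH hx, by simp [dd_self]⟩
  have h0 := hg.dd_pos hH (ne_top_of_bl hy) hne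
  obtain ⟨v, h1, h2, h3⟩ := exists_ray hg hH hc (ed_eq_dd (ne_top_of_bl hy)) h0 (dd_lt_of_bl hy)
  have e : √(g x (dd g U x y • v) (dd g U x y • v)) = dd g U x y := by
    rw [sqrt_smul, h1, Real.sqrt_one, mul_one, abs_of_pos h0]
  exact ⟨_, e.trans_lt (dd_lt_of_bl hy), by rw [expo_smul hg hH h2, h3], e⟩

theorem expo_image (hg : Met g U) (hH : Hs U) {R : ℝ} (hc : Cpt g U x R) (hx : x ∈ U)
    (hr : r ≤ R) : expo g U x '' tb (g x) r = bl g U x r := by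
  refine Subset.antisymm ?_ fun y hy => ?_
  · rintro _ ⟨v, hv, rfl⟩
    exact (ed_expo_le hg hH (tb_subset_Dom hg hH (hc.mono hr) hx hv)).trans_lt
      ((ENNReal.ofReal_lt_ofReal_iff ((Real.sqrt_nonneg _).trans_lt hv)).2 hv)
  · obtain ⟨v, h1, h2, -⟩ := exists_expo hg hH (hc.mono hr) hy
    exact ⟨v, h1, h2⟩

theorem exists_minGeo_ne (hg : Met g U) (hH : Hs U) {R : ℝ} (hc : Cpt g U x R)
    (hy : y ∈ bl g U x R) (hne : x ≠ y) :
    ∃ γ, MinGeo g U γ (dd g U x y) ∧ γ 0 = x ∧ γ (dd g U x y) = y := by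
  have h0 := hg.dd_pos hH (ne_top_of_bl hy) hne
  have e := ed_eq_dd (ne_top_of_bl hy)
  obtain ⟨v, h1, h2, h3⟩ := exists_ray hg hH hc e h0 (dd_lt_of_bl hy)
  exact ⟨_, minGeo_ray hg hH h1 h0.le h2 (by rw [h3, e]), ray_zero hg hH, h3⟩

omit [FiniteDimensional ℝ E] [IsManifold 𝓘(ℝ, E) ∞ M] in
theorem exists_unit [Nontrivial E] (hg : Met g U) (hx : x ∈ U) : ∃ v, g x v v = 1 := by
  obtain ⟨v, hv⟩ := exists_ne (0 : E)
  have h := Real.sqrt_pos.2 (hg.pos x hx v hv)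
  refine ⟨(√(g x v v))⁻¹ • v, Real.sqrt_eq_one.1 ?_⟩
  rw [sqrt_smul, abs_of_pos (inv_pos.2 h), inv_mul_cancel₀ h.ne']

/-- **local Hopf-Rinow** -/
theorem exists_minGeo [Nontrivial E] (hg : Met g U) (hH : Hs U) {R : ℝ} (hc : Cpt g U x R)
    (hy : y ∈ bl g U x R) : ∃ γ, MinGeo g U γ (dd g U x y) ∧ γ 0 = x ∧ γ (dd g U x y) = y := by
  rcases eq_or_ne x y with rfl | hne
  · have hx := (mem_of_bl hy).1
    obtain ⟨v, hv⟩ := exists_unit hg hx
    rw [dd_self]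
    exact ⟨_, minGeo_ray hg hH hv le_rfl (zero_mem_Life hg hx v) (by simp), ray_zero hg hH,
      ray_zero hg hH⟩
  · exact exists_minGeo_ne hg hH hc hy hne

theorem hr (E : Type) [NormedAddCommGroup E] [NormedSpace ℝ E] [FiniteDimensional ℝ E]
    [Nontrivial E] : HR E := fun _ _ _ _ _ _ _ _ _ hg hH hc hy => exists_minGeo hg hH hc hy

/-- two points near the centre are joined by a minimising geodesic -/
theorem exists_minGeo_two [Nontrivial E] (hg : Met g U) (hH : Hs U) {R : ℝ} (hc : Cpt g U x R)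
    (hr : 3 * r ≤ R) (hy : y ∈ bl g U x r) (hz : z ∈ bl g U x r) :
    ∃ γ, MinGeo g U γ (dd g U y z) ∧ γ 0 = y ∧ γ (dd g U y z) = z := by
  have h0 := pos_of_mem_bl hy
  refine exists_minGeo hg hH (hc.shift hg h0.le (by linarith) (bl_subset_cbl hy)) ?_
  exact bl_mono (by linarith) (bl_add h0.le (bl_subset_cbl (mem_bl_comm.1 hy)) hz)

theorem exists_minGeo_cpl [Nontrivial E] (hg : Met g U) (hH : Hs U) (hc : Cpl g U)
    (h : ed g U x y ≠ ⊤) : ∃ γ, MinGeo g U γ (dd g U x y) ∧ γ 0 = x ∧ γ (dd g U x y) = y :=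
  exists_minGeo hg hH (hc.cpt (mem_of_ed_ne h).1 (dd g U x y + 1))
    (mem_bl_iff.2 ⟨h, lt_add_one _⟩)

end Vale.Agent.P216CP
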