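import Vale.Agent.P216CP.Flow

/-!
# P216CP/Exp: the exponential map, the Gauss lemma, escape from compact sets
-/

open scoped Manifold ContDiff Topology
open Set Filter
open Vale.Agent.P219.RG Vale.Agent.P216R

noncomputable section

set_option maxSynthPendingDepth 3

namespace Vale.Agent.P216CP

variable {E : Type} [NormedAddCommGroup E] [NormedSpace ℝ E]

/-- The computation behind the Gauss lemma, in one chart. -/
theorem gauss_core [FiniteDimensional ℝ E] {G : E → Bil E} {O : Set E} (hG : IsMetricOn G O)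
    {B : Bil E} (hB : ∀ v w, B v w = B w v) {S : ℝ × E → E × E} {t : ℝ} {v : E}
    (hS : ContDiffAt ℝ ∞ S (t, v)) (hO : (S (t, v)).1 ∈ O)
    (hode : ∀ᶠ p in 𝓝 ((t, v) : ℝ × E),
      HasDerivAt (fun s => S (s, p.2)) (geoField G (S p)) p.1)
    (hen : ∀ᶠ p in 𝓝 ((t, v) : ℝ × E), G (S p).1 (S p).2 (S p).2 = B p.2 p.2) (w : E) :
    HasDerivAt (fun τ => G (S (τ, v)).1 (S (τ, v)).2 (fderiv ℝ (fun z => (S (τ, z)).1) v w))
      (B v w) t := by
  set X : ℝ × E → E := fun p => (S p).1 with hX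
  set V : ℝ × E → E := fun p => (S p).2 with hV
  have hXs : ContDiffAt ℝ ∞ X (t, v) := hS.fst
  have hVs : ContDiffAt ℝ ∞ V (t, v) := hS.snd
  have hXd : ∀ᶠ p in 𝓝 ((t, v) : ℝ × E), DifferentiableAt ℝ X p := by
    have h1 : ContDiffAt ℝ 1 X (t, v) := hXs.of_le (by exact_mod_cast le_top)
    filter_upwards [h1.eventually (by simp)] with p hp using hp.differentiableAt (by simp)
  have hc : ∀ τ : ℝ, HasDerivAt (fun s : ℝ => ((s, v) : ℝ × E)) ((1 : ℝ), (0 : E)) τ := fun τ =>
    (hasDerivAt_id τ).prodMk (hasDerivAt_const τ v)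
  have hXt : ∀ᶠ p in 𝓝 ((t, v) : ℝ × E), fderiv ℝ X p ((1 : ℝ), (0 : E)) = V p := by
    filter_upwards [hXd, hode] with p hp hp'
    have e1 : HasDerivAt (fun s : ℝ => ((s, p.2) : ℝ × E)) ((1 : ℝ), (0 : E)) p.1 :=
      (hasDerivAt_id p.1).prodMk (hasDerivAt_const p.1 p.2)
    have e2 := HasFDerivAt.comp_hasDerivAt (f := fun s : ℝ => ((s, p.2) : ℝ × E)) p.1
      hp.hasFDerivAt e1
    have e3 : HasDerivAt (fun s => X (s, p.2)) (V p) p.1 := hp'.fst
    exact e2.unique e3
  have hD : DifferentiableAt ℝ (fderiv ℝ X) (t, v) :=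
    (hXs.fderiv_right (m := ∞) (by simp)).differentiableAt (by simp)
  have hsym := hXs.isSymmSndFDerivAt
    (by simpa only [minSmoothness_of_isRCLikeNormedField] using two_le_infty)
  have hVd := (hVs.differentiableAt (by simp)).hasFDerivAt
  have hX0 := hXd.self_of_nhds.hasFDerivAt
  set Y : E := fderiv ℝ X (t, v) ((0 : ℝ), w) with hY
  set Z : E := fderiv ℝ V (t, v) ((0 : ℝ), w) with hZ
  -- derivative of the variation field
  have hYd : HasDerivAt (fun τ : ℝ => fderiv ℝ X (τ, v) ((0 : ℝ), w)) Z t := by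
    have e1 := (HasFDerivAt.comp_hasDerivAt (f := fun s : ℝ => ((s, v) : ℝ × E)) t
      hD.hasFDerivAt (hc t)).clm_apply (hasDerivAt_const t (((0 : ℝ), w) : ℝ × E))
    refine e1.congr_deriv ?_
    have e2 := (hD.hasFDerivAt.clm_apply
      (hasFDerivAt_const (((1 : ℝ), (0 : E)) : ℝ × E) ((t, v) : ℝ × E))).congr_of_eventuallyEq
      (EventuallyEq.symm hXt)
    rw [hZ, e2.fderiv]
    simp only [map_zero, add_zero, ContinuousLinearMap.comp_zero, zero_add,
      ContinuousLinearMap.flip_apply]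
    exact hsym _ _
  have hYe : (fun τ : ℝ => fderiv ℝ (fun z => (S (τ, z)).1) v w) =ᶠ[𝓝 t]
      fun τ => fderiv ℝ X (τ, v) ((0 : ℝ), w) := by
    filter_upwards [(hc t).continuousAt.eventually hXd] with τ hτ
    have e1 : HasFDerivAt (fun z : E => ((τ, z) : ℝ × E)) (ContinuousLinearMap.inr ℝ ℝ E) v :=
      (hasFDerivAt_const τ v).prodMk (hasFDerivAt_id (𝕜 := ℝ) v)
    have e2 := HasFDerivAt.comp (f := fun z : E => ((τ, z) : ℝ × E)) v hτ.hasFDerivAt e1
    exact congrArg (fun L : E →L[ℝ] E => L w) e2.fderiv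
  -- derivative of the energy identity
  have hGd := (hG.differentiableAt hO).hasFDerivAt
  have hE : fderiv ℝ G (X (t, v)) Y (V (t, v)) (V (t, v)) + 2 * G (X (t, v)) (V (t, v)) Z
      = 2 * B v w := by
    have e1 := ((HasFDerivAt.comp (f := X) (t, v) hGd hX0).clm_apply hVd).clm_apply hVd
    have e2 := (((hasFDerivAt_const B ((t, v) : ℝ × E)).clm_apply
      (hasFDerivAt_snd (𝕜 := ℝ) (p := ((t, v) : ℝ × E)))).clm_apply
      (hasFDerivAt_snd (𝕜 := ℝ) (p := ((t, v) : ℝ × E)))).congr_of_eventuallyEq hen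
    have e3 := congrArg (fun L : (ℝ × E) →L[ℝ] ℝ => L ((0 : ℝ), w)) (e1.unique e2)
    simp only [add_apply, ContinuousLinearMap.comp_apply, ContinuousLinearMap.flip_apply,
      Function.comp_apply, ContinuousLinearMap.coe_snd', zero_apply,
      ContinuousLinearMap.flip_add, add_zero, ContinuousLinearMap.flip_zero] at e3
    rw [← hY, ← hZ, hG.symm _ hO Z, hB w v] at e3
    linarith
  have h1 : HasDerivAt (fun τ => X (τ, v)) (V (t, v)) t := hode.self_of_nhds.fst
  have h2 : HasDerivAt (fun τ => V (τ, v)) (-chris G (X (t, v)) (V (t, v)) (V (t, v))) t :=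
    hode.self_of_nhds.snd
  have h3 := ((HasFDerivAt.comp_hasDerivAt (f := fun τ => X (τ, v)) t hGd h1).clm_apply
    h2).clm_apply (hYd.congr_of_eventuallyEq hYe)
  refine h3.congr_deriv ?_
  rw [hYe.eq_of_nhds]
  have hO' : X (t, v) ∈ O := hO
  have e0 : (S (t, v)).1 = X (t, v) := rfl
  simp only [add_apply, Function.comp_apply, map_neg, neg_apply, hG.chris_spec hO', ← hY, e0]
  linarith

variable {M : Type} [TopologicalSpace M] [ChartedSpace E M]

/-- the maximal geodesic from `p` with initial velocity `v` -/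
def ray (g : Ten E M) (U : Set M) (p : M) (v : E) : ℝ → M := geo g U p (pt E p, v)

/-- its life span -/
def Life (g : Ten E M) (U : Set M) (p : M) (v : E) : Set ℝ := Tm g U p (pt E p, v)

/-- the exponential map -/
def expo (g : Ten E M) (U : Set M) (p : M) (v : E) : M := ray g U p v 1

/-- the domain of the exponential map -/
def Dom (g : Ten E M) (U : Set M) (p : M) : Set E := {v | (1 : ℝ) ∈ Life g U p v}

variable {g : Ten E M} {U : Set M} {γ : ℝ → M} {s : Set ℝ} {t : ℝ} {a b p : M} {v : E}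
  {y : E × E}

theorem isOpen_Life : IsOpen (Life g U p v) := isOpen_Tm

theorem ordConnected_Life : (Life g U p v).OrdConnected := ordConnected_Tm

theorem mem_of_Life (ht : t ∈ Life g U p v) : p ∈ U := by
  have := (mem_dom_of_Tm ht).2
  rwa [mem_preimage, pt, (chartAt E p).left_inv (mem_chart_source E p)] at this

theorem Icc_subset_Life (ht : t ∈ Life g U p v) : Icc 0 t ⊆ Life g U p v :=
  ordConnected_Tm.out (zero_mem_Tm_of ht) ht

variable [FiniteDimensional ℝ E] [IsManifold 𝓘(ℝ, E) ∞ M]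

theorem sol_ray (hg : Met g U) (hH : Hs U) (hp : p ∈ U) (v : E) :
    Sol g U p (pt E p, v) (ray g U p v) (Life g U p v) := sol_geo hg hH (self_mem_dom hp)

theorem zero_mem_Life (hg : Met g U) (hp : p ∈ U) (v : E) : (0 : ℝ) ∈ Life g U p v :=
  zero_mem_Tm hg (self_mem_dom hp)

theorem isGeo_ray (hg : Met g U) (hH : Hs U) : IsGeo g U (ray g U p v) (Life g U p v) :=
  isGeo_geo hg hH

theorem ray_zero (hg : Met g U) (hH : Hs U) : ray g U p v 0 = p :=
  (geo_zero hg hH).trans ((chartAt E p).left_inv (mem_chart_source E p))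

theorem dv_ray_zero (hg : Met g U) (hH : Hs U) (hp : p ∈ U) : dv (ray g U p v) 0 = v := by
  rw [dv, ray_zero hg hH]
  exact congrArg Prod.snd (sol_ray hg hH hp v).init

theorem sp_ray (hg : Met g U) (hH : Hs U) (ht : t ∈ Life g U p v) :
    sp g (ray g U p v) t = g p v v := by
  rw [(isGeo_ray hg hH).sp_const hg isOpen_Life ordConnected_Life.isPreconnected ht
    (zero_mem_Tm_of ht), sp, dv_ray_zero hg hH (mem_of_Life ht), ray_zero hg hH]

theorem mem_Life_smul (hg : Met g U) (hH : Hs U) {k : ℝ} :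
    t ∈ Life g U p (k • v) ↔ k * t ∈ Life g U p v := mem_Tm_smul hg hH

theorem ray_smul (hg : Met g U) (hH : Hs U) {k : ℝ} (ht : k * t ∈ Life g U p v) :
    ray g U p (k • v) t = ray g U p v (k * t) := (geo_smul hg hH ht).2

theorem smul_mem_Dom (hg : Met g U) (hH : Hs U) : t • v ∈ Dom g U p ↔ t ∈ Life g U p v := by
  rw [Dom, mem_ofPred_eq, mem_Life_smul hg hH, mul_one]

theorem expo_smul (hg : Met g U) (hH : Hs U) (ht : t ∈ Life g U p v) :
    expo g U p (t • v) = ray g U p v t := by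
  rw [expo, ray_smul hg hH (by rwa [mul_one]), mul_one]

theorem smul_mem_Dom_of (hg : Met g U) (hH : Hs U) (hv : v ∈ Dom g U p) (ht : t ∈ Icc (0 : ℝ) 1) :
    t • v ∈ Dom g U p := (smul_mem_Dom hg hH).2 (Icc_subset_Life hv ht)

theorem zero_mem_Dom (hg : Met g U) (hH : Hs U) (hp : p ∈ U) : (0 : E) ∈ Dom g U p := by
  simpa using (smul_mem_Dom (t := 0) (v := (0 : E)) hg hH).2 (zero_mem_Life hg hp 0)

theorem expo_zero (hg : Met g U) (hH : Hs U) (hp : p ∈ U) : expo g U p 0 = p := by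
  simpa [ray_zero hg hH] using expo_smul (v := (0 : E)) hg hH (zero_mem_Life hg hp 0)

theorem expo_mem (hg : Met g U) (hH : Hs U) (hv : v ∈ Dom g U p) : expo g U p v ∈ U :=
  (isGeo_ray hg hH).mem 1 hv

/-- every geodesic is a ray -/
theorem IsGeo.eq_ray (hg : Met g U) (hH : Hs U) (h : IsGeo g U γ s) (hs : IsOpen s)
    (ho : s.OrdConnected) {c : ℝ} (hc : c ∈ s) (ht : t + c ∈ s) :
    t ∈ Life g U (γ c) (dv γ c) ∧ ray g U (γ c) (dv γ c) t = γ (t + c) := by
  have h1 := h.sol hs ho hc (mem_chart_source E (γ c)) 1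
  rw [one_smul] at h1
  have h2 : t ∈ {t | 1 * t + c ∈ s} := by rwa [mem_ofPred_eq, one_mul]
  exact ⟨h1.subset h2, (h1.geo_eq hg hH h2).trans (by rw [one_mul])⟩

omit [FiniteDimensional ℝ E] [IsManifold 𝓘(ℝ, E) ∞ M] in
theorem tendsto_pair (p : M) (t : ℝ) (v : E) :
    ContDiffAt ℝ ∞ (fun q : ℝ × E => ((q.1, (pt E p, q.2)) : ℝ × (E × E))) (t, v) :=
  contDiffAt_fst.prodMk (contDiffAt_const.prodMk contDiffAt_snd)

theorem ev_Life (hg : Met g U) (hH : Hs U) (ht : t ∈ Life g U p v) :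
    ∀ᶠ q : ℝ × E in 𝓝 (t, v), q.1 ∈ Life g U p q.2 :=
  (tendsto_pair p t v).continuousAt.eventually (good_of_mem hg hH ht).ev

theorem continuousAt_ray (hg : Met g U) (hH : Hs U) (ht : t ∈ Life g U p v) :
    ContinuousAt (fun q : ℝ × E => ray g U p q.2 q.1) (t, v) :=
  ContinuousAt.comp (g := fun q : ℝ × (E × E) => geo g U p q.2 q.1)
    (f := fun q : ℝ × E => ((q.1, (pt E p, q.2)) : ℝ × (E × E))) (good_of_mem hg hH ht).cont
    (tendsto_pair p t v).continuousAt

theorem contDiffAt_stt_ray (hg : Met g U) (hH : Hs U) (ht : t ∈ Life g U p v)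
    (hb : ray g U p v t ∈ (chartAt E b).source) :
    ContDiffAt ℝ ∞ (fun q : ℝ × E => stt (E := E) (ray g U p q.2) b q.1) (t, v) :=
  ContDiffAt.comp (g := fun q : ℝ × (E × E) => stt (E := E) (geo g U p q.2) b q.1)
    (f := fun q : ℝ × E => ((q.1, (pt E p, q.2)) : ℝ × (E × E))) (t, v)
    ((good_of_mem hg hH ht).smooth b hb) (tendsto_pair p t v)

theorem isOpen_Dom (hg : Met g U) (hH : Hs U) : IsOpen (Dom g U p) := by
  rw [isOpen_iff_mem_nhds]
  intro v hv
  have h : ContinuousAt (fun z : E => (((1 : ℝ), z) : ℝ × E)) v := by fun_prop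
  exact h.eventually (ev_Life hg hH hv)

theorem continuousAt_ray' (hg : Met g U) (hH : Hs U) (ht : t ∈ Life g U p v) :
    ContinuousAt (fun z => ray g U p z t) v :=
  ContinuousAt.comp (g := fun q : ℝ × E => ray g U p q.2 q.1) (f := fun z : E => (t, z))
    (continuousAt_ray hg hH ht) (by fun_prop)

theorem contDiffAt_ray (hg : Met g U) (hH : Hs U) (ht : t ∈ Life g U p v)
    (hb : ray g U p v t ∈ (chartAt E b).source) :
    ContDiffAt ℝ ∞ (fun z => chartAt E b (ray g U p z t)) v :=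
  (ContDiffAt.comp (g := fun q : ℝ × E => stt (E := E) (ray g U p q.2) b q.1)
    (f := fun z : E => (t, z)) v (contDiffAt_stt_ray hg hH ht hb)
    (contDiffAt_const.prodMk contDiffAt_id)).fst

theorem continuousAt_expo (hg : Met g U) (hH : Hs U) (hv : v ∈ Dom g U p) :
    ContinuousAt (expo g U p) v := continuousAt_ray' hg hH hv

theorem contDiffAt_expo (hg : Met g U) (hH : Hs U) (hv : v ∈ Dom g U p)
    (hb : expo g U p v ∈ (chartAt E b).source) :
    ContDiffAt ℝ ∞ (fun z => chartAt E b (expo g U p z)) v := contDiffAt_ray hg hH hv hb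

omit [FiniteDimensional ℝ E] [IsManifold 𝓘(ℝ, E) ∞ M] in
theorem contMDiffAt_of_chart {F : Type} [NormedAddCommGroup F] [NormedSpace ℝ F] {f : F → M}
    {x : F} {n : ℕ∞ω} (h1 : ContinuousAt f x)
    (h2 : ContDiffAt ℝ n (fun z => chartAt E (f x) (f z)) x) :
    ContMDiffAt 𝓘(ℝ, F) 𝓘(ℝ, E) n f x := by
  rw [contMDiffAt_iff]
  refine ⟨h1, ?_⟩
  simp only [modelWithCornersSelf_coe, range_id, contDiffWithinAt_univ]
  exact h2

omit [FiniteDimensional ℝ E] [IsManifold 𝓘(ℝ, E) ∞ M] in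
theorem md_of_chart {f : E → M} {x : E} (h1 : ContinuousAt f x)
    (h2 : DifferentiableAt ℝ (fun z => chartAt E (f x) (f z)) x) :
    md E f x = fderiv ℝ (fun z => chartAt E (f x) (f z)) x := by
  have h : HasMFDerivAt 𝓘(ℝ, E) 𝓘(ℝ, E) f x (fderiv ℝ (fun z => chartAt E (f x) (f z)) x) := by
    refine ⟨h1, ?_⟩
    simp only [modelWithCornersSelf_coe, range_id]
    exact h2.hasFDerivAt.hasFDerivWithinAt
  exact h.mfderiv

theorem contMDiffAt_expo (hg : Met g U) (hH : Hs U) (hv : v ∈ Dom g U p) :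
    ContMDiffAt 𝓘(ℝ, E) 𝓘(ℝ, E) ∞ (expo g U p) v :=
  contMDiffAt_of_chart (continuousAt_expo hg hH hv)
    (contDiffAt_expo hg hH hv (mem_chart_source E _))

theorem contMDiffOn_expo (hg : Met g U) (hH : Hs U) :
    ContMDiffOn 𝓘(ℝ, E) 𝓘(ℝ, E) ∞ (expo g U p) (Dom g U p) :=
  fun _ hv => (contMDiffAt_expo hg hH hv).contMDiffWithinAt

theorem md_expo (hg : Met g U) (hH : Hs U) (hv : v ∈ Dom g U p) :
    md E (expo g U p) v = fderiv ℝ (fun z => chartAt E (expo g U p v) (expo g U p z)) v :=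
  md_of_chart (continuousAt_expo hg hH hv)
    ((contDiffAt_expo hg hH hv (mem_chart_source E _)).differentiableAt (by simp))

/-- the radial derivative of the exponential map, in any chart -/
theorem fderiv_expo_radial (hg : Met g U) (hH : Hs U) (ht : t ∈ Life g U p v)
    (hb : ray g U p v t ∈ (chartAt E b).source) :
    fderiv ℝ (fun z => chartAt E b (expo g U p z)) (t • v) v = deriv (cc (ray g U p v) b) t := by
  have h1 := (contDiffAt_expo hg hH ((smul_mem_Dom hg hH).2 ht)
    (by rwa [expo_smul hg hH ht])).differentiableAt (by simp)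
  have h2 : HasDerivAt (fun s : ℝ => s • v) v t := by simpa using (hasDerivAt_id t).smul_const v
  have h3 := HasFDerivAt.comp_hasDerivAt (f := fun s : ℝ => s • v) t h1.hasFDerivAt h2
  refine (HasDerivAt.deriv (h3.congr_of_eventuallyEq ?_)).symm
  filter_upwards [isOpen_Life.mem_nhds ht] with x hx
  simp only [cc, Function.comp_apply, expo_smul hg hH hx]

theorem md_expo_radial (hg : Met g U) (hH : Hs U) (ht : t ∈ Life g U p v) :
    md E (expo g U p) (t • v) v = dv (ray g U p v) t := by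
  rw [md_expo hg hH ((smul_mem_Dom hg hH).2 ht), expo_smul hg hH ht,
    fderiv_expo_radial hg hH ht (mem_chart_source E _), dv]

theorem md_expo_zero (hg : Met g U) (hH : Hs U) (hp : p ∈ U) (v : E) :
    md E (expo g U p) 0 v = v := by
  have := md_expo_radial hg hH (zero_mem_Life hg hp v)
  rwa [zero_smul, dv_ray_zero hg hH hp] at this

omit [FiniteDimensional ℝ E] in
theorem fderiv_chart_trans {F : Type} [NormedAddCommGroup F] [NormedSpace ℝ F] {f : F → M} {x : F}
    (h1 : ContinuousAt f x) (ha : f x ∈ (chartAt E a).source) (hb : f x ∈ (chartAt E b).source)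
    (h2 : DifferentiableAt ℝ (fun z => chartAt E a (f z)) x) (w : F) :
    fderiv ℝ (fun z => chartAt E b (f z)) x w
      = fderiv ℝ (trans E a b) (chartAt E a (f x)) (fderiv ℝ (fun z => chartAt E a (f z)) x w) := by
  have h3 := (contDiffAt_trans_chart (E := E) a b ((chartAt E a).map_source ha)
    (by rwa [(chartAt E a).left_inv ha])).differentiableAt (by simp)
  have h4 := HasFDerivAt.comp (f := fun z => chartAt E a (f z)) x h3.hasFDerivAt h2.hasFDerivAt
  have h5 : (fun z => chartAt E b (f z)) =ᶠ[𝓝 x] trans E a b ∘ fun z => chartAt E a (f z) := by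
    filter_upwards [h1.eventually ((chartAt E a).open_source.mem_nhds ha)] with z hz
    exact (trans_symm_source a b hz).symm
  rw [(h4.congr_of_eventuallyEq h5).fderiv]
  rfl

/-- The Gauss lemma along a ray. -/
theorem gauss_ray (hg : Met g U) (hH : Hs U) (ht : t ∈ Life g U p v) (w : E) :
    g (ray g U p v t) (dv (ray g U p v) t)
      (fderiv ℝ (fun z => chartAt E (ray g U p v t) (ray g U p z t)) v w) = t * g p v w := by
  set f : ℝ → ℝ := fun t => g (ray g U p v t) (dv (ray g U p v) t)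
      (fderiv ℝ (fun z => chartAt E (ray g U p v t) (ray g U p z t)) v w) - t * g p v w with hf
  have hp := mem_of_Life ht
  have hG := isGeo_ray (p := p) (v := v) hg hH
  have hd : ∀ τ ∈ Life g U p v, HasDerivAt f 0 τ := by
    intro τ hτ
    set b := ray g U p v τ with hb
    have hbs : ray g U p v τ ∈ (chartAt E b).source := mem_chart_source E _
    have e1 := (ev_Life hg hH hτ).and
      ((continuousAt_ray hg hH hτ).eventually ((chartAt E b).open_source.mem_nhds hbs))
    have h1 := gauss_core (met_on hg b) (hg.symm p hp) (contDiffAt_stt_ray hg hH hτ hbs)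
      (hG.cc_mem hτ hbs)
      (by filter_upwards [e1] with q hq using (isGeo_ray hg hH).hasDerivAt_stt hq.1 hq.2)
      (by
        filter_upwards [e1] with q hq
        rw [← sp_ray hg hH hq.1]
        exact (sp_chart ((isGeo_ray hg hH).contAt isOpen_Life hq.1) hq.2
          ((isGeo_ray hg hH).eqn b _ hq.1 hq.2).1).symm) w
    have h2 := h1.sub ((hasDerivAt_id τ).mul_const (g p v w))
    rw [one_mul, sub_self] at h2
    refine h2.congr_of_eventuallyEq ?_
    filter_upwards [isOpen_Life.mem_nhds hτ, eventually_source (hG.contAt isOpen_Life hτ) hbs]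
      with x hx hxb
    have hxx : ray g U p v x ∈ (chartAt E (ray g U p v x)).source := mem_chart_source E _
    simp only [hf, Pi.sub_apply, id, stt]
    rw [dv, deriv_cc (hG.contAt isOpen_Life hx) hxb hxx (hG.eqn b x hx hxb).1,
      fderiv_chart_trans (continuousAt_ray' hg hH hx) hxb hxx
        ((contDiffAt_ray hg hH hx hxb).differentiableAt (by simp)), ← co_self]
    exact congrArg (fun r => r - x * g p v w) (co_compat' g hxb hxx _ _)
  have h0 : f 0 = 0 := by
    simp only [hf, ray_zero hg hH, fderiv_fun_const, Pi.zero_apply, zero_apply, map_zero, zero_mul,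
      sub_self]
  have h3 := isOpen_Life.is_const_of_deriv_eq_zero ordConnected_Life.isPreconnected
    (fun x hx => (hd x hx).differentiableAt.differentiableWithinAt)
    (fun x hx => (hd x hx).deriv) ht (zero_mem_Tm_of ht)
  rw [h0] at h3
  exact sub_eq_zero.1 h3

/-- The Gauss lemma. -/
theorem gauss (hg : Met g U) (hH : Hs U) (hv : v ∈ Dom g U p) (w : E) :
    P216R.comap (expo g U p) g v v w = g p v w := by
  have h1 := gauss_ray hg hH hv w
  have h2 := md_expo_radial hg hH hv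
  rw [one_smul] at h2
  rw [one_mul, ← h2] at h1
  rw [← h1]
  change g (expo g U p v) (md E (expo g U p) v v) (md E (expo g U p) v w) = _
  rw [md_expo hg hH hv]
  rfl

/-- A maximal geodesic cannot stop inside a compact subset of `U`. -/
theorem mem_Tm_of_compact (hg : Met g U) (hH : Hs U) {K : Set M} (hK : IsCompact K) (hKU : K ⊆ U)
    (hy : y.1 ∈ dom E a U) {T : ℝ} (hT : 0 ≤ T)
    (h : ∀ t ∈ Ico 0 T, t ∈ Tm g U a y → geo g U a y t ∈ K) : T ∈ Tm g U a y := by
  by_contra hne
  have h0 := zero_mem_Tm hg hy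
  set A : Set ℝ := (Tm g U a y)ᶜ ∩ Icc 0 T with hA
  have hAc : IsCompact A := isCompact_Icc.inter_left isOpen_Tm.isClosed_compl
  obtain ⟨S, hS, hSm⟩ := hAc.exists_isLeast ⟨T, hne, hT, le_rfl⟩
  have hS0 : 0 < S := lt_of_le_of_ne hS.2.1 (by rintro rfl; exact hS.1 h0)
  have hlt : ∀ t ∈ Ioo 0 S, t ∈ Tm g U a y := fun t ht => by
    by_contra h'
    exact absurd (hSm ⟨h', ht.1.le, ht.2.le.trans hS.2.2⟩) (not_le.2 ht.2)
  set σ := geo g U a y with hσ
  have hG : IsGeo g U σ (Tm g U a y) := isGeo_geo hg hH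
  obtain ⟨l, hl⟩ := Ultrafilter.exists_le (𝓝[<] S)
  have e1 : ∀ᶠ t in (l : Filter ℝ), t ∈ Ioo 0 S := hl (Ioo_mem_nhdsLT hS0)
  obtain ⟨q, hqK, hq⟩ := hK.ultrafilter_le_nhds (l.map σ) (by
    rw [Ultrafilter.coe_map, le_principal_iff, mem_map]
    filter_upwards [e1] with t ht using h t ⟨ht.1.le, ht.2.trans_le hS.2.2⟩ (hlt t ht))
  have hq' : Tendsto σ l (𝓝 q) := hq
  have hqs := mem_chart_source E q
  have e2 : ∀ᶠ t in (l : Filter ℝ), σ t ∈ (chartAt E q).source :=
    hq'.eventually ((chartAt E q).open_source.mem_nhds hqs)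
  have e3 : Tendsto (cc (E := E) σ q) l (𝓝 (chartAt E q q)) :=
    ((chartAt E q).continuousAt hqs).tendsto.comp hq'
  obtain ⟨c, hc, hlow⟩ := (met_on hg q).lower_bound (self_mem_dom (hKU hqK))
  obtain ⟨V, -, hV⟩ := (isCompact_closedBall (0 : E) √(sp g σ 0 / c)).ultrafilter_le_nhds
    (l.map (deriv (cc (E := E) σ q))) (by
      rw [Ultrafilter.coe_map, le_principal_iff, mem_map]
      filter_upwards [e1, e2, e3.eventually hlow] with t h1 h2 h3
      rw [mem_preimage, mem_closedBall_zero_iff]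
      refine Real.le_sqrt_of_sq_le ?_
      rw [le_div_iff₀ hc, mul_comm, hG.sp_const hg isOpen_Tm ordConnected_Tm.isPreconnected h0
        (hlt t h1), sp_chart (hG.contAt isOpen_Tm (hlt t h1)) h2 (hG.eqn q t (hlt t h1) h2).1]
      exact h3 _)
  have e4 : Tendsto (stt (E := E) σ q) l (𝓝 (chartAt E q q, V)) := e3.prodMk_nhds hV
  obtain ⟨ε, W, Φ, hB, hW⟩ := exists_box (y := (chartAt E q q, V)) hg (self_mem_dom (hKU hqK))
  have e5 : ∀ᶠ t in (l : Filter ℝ), t ∈ Ioo (S - ε) S := hl (Ioo_mem_nhdsLT (by linarith [hB.pos]))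
  obtain ⟨t, h1, h2, h3, h4⟩ :=
    (e1.and (e2.and ((e4.eventually (hB.isOpen.mem_nhds hW)).and e5))).exists
  exact hS.1 (hB.follow hg hH (hlt t h1) h2 h3 ⟨by linarith [hB.pos, h4.2], by linarith [h4.1]⟩).1

end Vale.Agent.P216CP
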