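import Vale.Agent.P216CP.Geo

/-!
# P216CP/Flow: the maximal geodesic flow

`geo g U a y` is the maximal geodesic in `U` whose position and velocity at time `0`, read in the
chart at `a`, are `y`; it lives on the open interval `Tm g U a y`.  The set of pairs `(t, y)` with
`t ∈ Tm g U a y` is open and the flow is smooth on it.
-/

open scoped Manifold ContDiff Topology
open Set Filter
open Vale.Agent.P219.RG Vale.Agent.P216R

noncomputable section

set_option maxSynthPendingDepth 3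

namespace Vale.Agent.P216CP

variable {E : Type} [NormedAddCommGroup E] [NormedSpace ℝ E]
variable {M : Type} [TopologicalSpace M] [ChartedSpace E M]

/-- `γ` is a geodesic on the open interval `s ∋ 0` with initial data `y` in the chart at `a` -/
structure Sol (g : Ten E M) (U : Set M) (a : M) (y : E × E) (γ : ℝ → M) (s : Set ℝ) : Prop where
  isOpen : IsOpen s
  ord : s.OrdConnected
  zero : (0 : ℝ) ∈ s
  geo : IsGeo g U γ s
  src : γ 0 ∈ (chartAt E a).source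
  init : stt γ a 0 = y

/-- the life span of the maximal geodesic -/
def Tm (g : Ten E M) (U : Set M) (a : M) (y : E × E) : Set ℝ :=
  {t | ∃ q : (ℝ → M) × Set ℝ, Sol g U a y q.1 q.2 ∧ t ∈ q.2}

open Classical in
/-- the maximal geodesic -/
def geo (g : Ten E M) (U : Set M) (a : M) (y : E × E) (t : ℝ) : M :=
  if h : t ∈ Tm g U a y then h.choose.1 t else (chartAt E a).symm y.1

variable {g : Ten E M} {U : Set M} {γ γ' : ℝ → M} {s s' : Set ℝ} {t : ℝ} {a b : M} {y : E × E}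

theorem Sol.subset (h : Sol g U a y γ s) : s ⊆ Tm g U a y := fun _ ht => ⟨(γ, s), h, ht⟩

theorem Sol.mem_dom (h : Sol g U a y γ s) : y.1 ∈ dom E a U := by
  rw [← h.init]; exact h.geo.cc_mem h.zero h.src

theorem Sol.zero_eq (h : Sol g U a y γ s) : γ 0 = (chartAt E a).symm y.1 := by
  rw [← h.init]; exact (symm_ccT a h.src).symm

theorem mem_dom_of_Tm (ht : t ∈ Tm g U a y) : y.1 ∈ dom E a U := ht.choose_spec.1.mem_dom

theorem isOpen_Tm : IsOpen (Tm g U a y) := by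
  rw [isOpen_iff_mem_nhds]
  rintro t ⟨q, hq, ht⟩
  exact mem_of_superset (hq.isOpen.mem_nhds ht) hq.subset

theorem ordConnected_Tm : (Tm g U a y).OrdConnected := by
  refine ⟨fun x hx z hz t ht => ?_⟩
  obtain ⟨q, hq, hxq⟩ := hx
  obtain ⟨q', hq', hzq⟩ := hz
  rcases le_total t 0 with h | h
  · exact hq.subset (hq.ord.out hxq hq.zero ⟨ht.1, h⟩)
  · exact hq'.subset (hq'.ord.out hq'.zero hzq ⟨h, ht.2⟩)

theorem zero_mem_Tm_of (ht : t ∈ Tm g U a y) : (0 : ℝ) ∈ Tm g U a y :=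
  ht.choose_spec.1.subset ht.choose_spec.1.zero

theorem ord_preimage (hs : s.OrdConnected) (k c : ℝ) : {t | k * t + c ∈ s}.OrdConnected := by
  refine ⟨fun x hx z hz t ht => ?_⟩
  rcases le_total 0 k with h | h
  · exact hs.out hx hz ⟨by nlinarith [ht.1], by nlinarith [ht.2]⟩
  · exact hs.out hz hx ⟨by nlinarith [ht.2], by nlinarith [ht.1]⟩

/-- affine reparametrisation, read in any chart -/
theorem IsGeo.sol (h : IsGeo g U γ s) (hs : IsOpen s) (ho : s.OrdConnected) {c : ℝ} (hc : c ∈ s)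
    (hb : γ c ∈ (chartAt E b).source) (k : ℝ) :
    Sol g U b ((stt γ b c).1, k • (stt γ b c).2) (fun t => γ (k * t + c)) {t | k * t + c ∈ s} where
  isOpen := hs.preimage (by fun_prop : Continuous fun t : ℝ => k * t + c)
  ord := ord_preimage ho k c
  zero := by simpa using hc
  geo := h.comp_affine k c
  src := by simpa using hb
  init := by rw [stt_affine]; simp

theorem Sol.smul (h : Sol g U a y γ s) (k : ℝ) :
    Sol g U a (y.1, k • y.2) (fun t => γ (k * t)) {t | k * t ∈ s} := by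
  have := h.geo.sol h.isOpen h.ord h.zero h.src k
  simpa only [h.init, add_zero] using this

variable [FiniteDimensional ℝ E] [IsManifold 𝓘(ℝ, E) ∞ M]

theorem Sol.eqOn (hg : Met g U) (hH : Hs U) (h : Sol g U a y γ s) (h' : Sol g U a y γ' s') :
    EqOn γ γ' (s ∩ s') :=
  (h.geo.mono inter_subset_left).eqOn hg hH (h'.geo.mono inter_subset_right)
    (h.isOpen.inter h'.isOpen) (h.ord.inter h'.ord).isPreconnected ⟨h.zero, h'.zero⟩ h.src h'.src
    (h.init.trans h'.init.symm)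

theorem Sol.geo_eq (hg : Met g U) (hH : Hs U) (h : Sol g U a y γ s) (ht : t ∈ s) :
    P216CP.geo g U a y t = γ t := by
  have h1 := h.subset ht
  rw [P216CP.geo, dif_pos h1]
  exact h1.choose_spec.1.eqOn hg hH h ⟨h1.choose_spec.2, ht⟩

theorem Sol.geo_ev (hg : Met g U) (hH : Hs U) (h : Sol g U a y γ s) (ht : t ∈ s) :
    P216CP.geo g U a y =ᶠ[𝓝 t] γ := by
  filter_upwards [h.isOpen.mem_nhds ht] with x hx using h.geo_eq hg hH hx

/-- a flow box of the geodesic field in the chart at `b` -/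
structure Box (g : Ten E M) (U : Set M) (b : M) (ε : ℝ) (W : Set (E × E))
    (Φ : ℝ → E × E → E × E) : Prop where
  pos : 0 < ε
  isOpen : IsOpen W
  zero : ∀ x ∈ W, Φ 0 x = x
  ode : ∀ x ∈ W, ∀ t ∈ Ioo (-ε) ε, Φ t x ∈ dom E b U ×ˢ (univ : Set E) ∧
    HasDerivAt (fun s => Φ s x) (geoField (co g b) (Φ t x)) t
  smooth : ContDiffOn ℝ ∞ (fun p : ℝ × (E × E) => Φ p.1 p.2) (Ioo (-ε) ε ×ˢ W)

theorem exists_box (hg : Met g U) (hy : y.1 ∈ dom E b U) :
    ∃ ε W Φ, Box g U b ε W Φ ∧ y ∈ W := by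
  obtain ⟨ε, hε, W, hW, hyW, Φ, h0, h1, h2⟩ := exists_flow_smooth (geoField (co g b))
    (dom E b U ×ˢ (univ : Set E)) ((met_on hg b).isOpen.prod isOpen_univ)
    (met_on hg b).contDiffOn_geoField y ⟨hy, mem_univ _⟩
  exact ⟨ε, W, Φ, ⟨hε, hW, h0, h1, h2⟩, hyW⟩

theorem Box.sol {ε : ℝ} {W : Set (E × E)} {Φ : ℝ → E × E → E × E} (hB : Box g U b ε W Φ)
    (hg : Met g U) (hy : y ∈ W) :
    Sol g U b y (fun t => (chartAt E b).symm (Φ t y).1) (Ioo (-ε) ε) ∧
      ∀ t ∈ Ioo (-ε) ε, (chartAt E b).symm (Φ t y).1 ∈ (chartAt E b).source ∧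
        stt (fun t => (chartAt E b).symm (Φ t y).1) b t = Φ t y := by
  have h0 : (0 : ℝ) ∈ Ioo (-ε) ε := ⟨by linarith [hB.pos], hB.pos⟩
  obtain ⟨h1, h2⟩ := isGeo_of_chart hg b (c := fun t => Φ t y) isOpen_Ioo
    fun t ht => ⟨(hB.ode y hy t ht).1.1, (hB.ode y hy t ht).2⟩
  exact ⟨⟨isOpen_Ioo, ordConnected_Ioo, h0, h1, (h2 0 h0).1, (h2 0 h0).2.trans (hB.zero y hy)⟩, h2⟩

theorem zero_mem_Tm (hg : Met g U) (hy : y.1 ∈ dom E a U) : (0 : ℝ) ∈ Tm g U a y := by
  obtain ⟨ε, W, Φ, hB, hyW⟩ := exists_box hg hy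
  exact (hB.sol hg hyW).1.subset (hB.sol hg hyW).1.zero

theorem isGeo_geo (hg : Met g U) (hH : Hs U) : IsGeo g U (geo g U a y) (Tm g U a y) := by
  refine IsGeo.of_forall ?_
  rintro t ⟨q, hq, ht⟩
  exact ⟨q.2, hq.isOpen, ht, hq.geo.congr hq.isOpen fun x hx => hq.geo_eq hg hH hx⟩

theorem sol_geo (hg : Met g U) (hH : Hs U) (hy : y.1 ∈ dom E a U) :
    Sol g U a y (geo g U a y) (Tm g U a y) := by
  obtain ⟨q, hq, h0⟩ := zero_mem_Tm hg hy
  exact ⟨isOpen_Tm, ordConnected_Tm, hq.subset h0, isGeo_geo hg hH,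
    by rw [hq.geo_eq hg hH h0]; exact hq.src, by rw [stt_congr (hq.geo_ev hg hH h0), hq.init]⟩

theorem geo_mem (hg : Met g U) (hH : Hs U) (ht : t ∈ Tm g U a y) : geo g U a y t ∈ U :=
  (isGeo_geo hg hH).mem t ht

theorem geo_contAt (hg : Met g U) (hH : Hs U) (ht : t ∈ Tm g U a y) :
    ContinuousAt (geo g U a y) t := (isGeo_geo hg hH).contAt isOpen_Tm ht

theorem geo_zero (hg : Met g U) (hH : Hs U) : geo g U a y 0 = (chartAt E a).symm y.1 := by
  by_cases h : (0 : ℝ) ∈ Tm g U a y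
  · exact (sol_geo hg hH (mem_dom_of_Tm h)).zero_eq
  · rw [geo, dif_neg h]

theorem geo_smul (hg : Met g U) (hH : Hs U) {k : ℝ} (ht : k * t ∈ Tm g U a y) :
    t ∈ Tm g U a (y.1, k • y.2) ∧ geo g U a (y.1, k • y.2) t = geo g U a y (k * t) := by
  have h := (sol_geo hg hH (mem_dom_of_Tm ht)).smul k
  exact ⟨h.subset ht, h.geo_eq hg hH ht⟩

theorem mem_Tm_smul (hg : Met g U) (hH : Hs U) {k : ℝ} {u v : E} :
    t ∈ Tm g U a (u, k • v) ↔ k * t ∈ Tm g U a (u, v) := by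
  refine ⟨fun h => ?_, fun h => (geo_smul hg hH h).1⟩
  rcases eq_or_ne k 0 with rfl | hk
  · rw [zero_mul]
    exact zero_mem_Tm hg (mem_dom_of_Tm (y := (u, (0 : ℝ) • v)) h)
  · have h1 : k⁻¹ * (k * t) ∈ Tm g U a (u, k • v) := by rwa [inv_mul_cancel_left₀ hk]
    simpa only [inv_smul_smul₀ hk] using (geo_smul hg hH h1).1

/-- Gluing: two geodesics on overlapping intervals with the same state at a common time. -/
theorem Sol.extend (hg : Met g U) (hH : Hs U) (h : Sol g U a y γ s) (h' : IsGeo g U γ' s')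
    (hs' : IsOpen s') (ho : s'.OrdConnected) (ht : t ∈ s) (ht' : t ∈ s')
    (hb : γ t ∈ (chartAt E b).source) (hb' : γ' t ∈ (chartAt E b).source)
    (he : stt (E := E) γ b t = stt γ' b t) :
    ∀ x ∈ s', x ∈ Tm g U a y ∧ P216CP.geo g U a y x = γ' x := by
  classical
  have h1 : EqOn γ γ' (s ∩ s') :=
    (h.geo.mono inter_subset_left).eqOn hg hH (h'.mono inter_subset_right)
      (h.isOpen.inter hs') (h.ord.inter ho).isPreconnected ⟨ht, ht'⟩ hb hb' he
  set σ : ℝ → M := fun x => if x ∈ s then γ x else γ' x with hσ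
  have e1 : EqOn σ γ s := fun x hx => if_pos hx
  have e2 : EqOn σ γ' s' := fun x hx => by
    by_cases hx' : x ∈ s
    · rw [e1 hx', h1 ⟨hx', hx⟩]
    · exact if_neg hx'
  have e3 : σ =ᶠ[𝓝 0] γ := by
    filter_upwards [h.isOpen.mem_nhds h.zero] with x hx using e1 hx
  have hS : Sol g U a y σ (s ∪ s') :=
    ⟨h.isOpen.union hs', ((h.ord.isPreconnected).union t ht ht' ho.isPreconnected).ordConnected,
      Or.inl h.zero, (h.geo.congr h.isOpen e1).union (h'.congr hs' e2) h.isOpen hs',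
      by rw [e1 h.zero]; exact h.src, by rw [stt_congr e3, h.init]⟩
  intro x hx
  exact ⟨hS.subset (Or.inr hx), (hS.geo_eq hg hH (Or.inr hx)).trans (e2 hx)⟩

/-- the maximal geodesic follows the local flows -/
theorem Box.follow {ε : ℝ} {W : Set (E × E)} {Φ : ℝ → E × E → E × E} (hB : Box g U b ε W Φ)
    (hg : Met g U) (hH : Hs U) {t₀ : ℝ} (ht₀ : t₀ ∈ Tm g U a y)
    (hb : geo g U a y t₀ ∈ (chartAt E b).source) (hW : stt (geo g U a y) b t₀ ∈ W)
    (ht : t - t₀ ∈ Ioo (-ε) ε) :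
    t ∈ Tm g U a y ∧ geo g U a y t ∈ (chartAt E b).source ∧
      stt (geo g U a y) b t = Φ (t - t₀) (stt (geo g U a y) b t₀) := by
  set x := stt (E := E) (P216CP.geo g U a y) b t₀ with hx
  obtain ⟨h1, h2⟩ := hB.sol hg hW
  set σ : ℝ → M := fun t => (chartAt E b).symm (Φ t x).1 with hσ
  have h3 := h1.geo.comp_affine 1 (-t₀)
  have ho : IsOpen {t | 1 * t + -t₀ ∈ Ioo (-ε) ε} :=
    isOpen_Ioo.preimage (by fun_prop : Continuous fun t : ℝ => 1 * t + -t₀)
  have e0 : 1 * t₀ + -t₀ = 0 := by ring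
  have h4 := (sol_geo hg hH (mem_dom_of_Tm ht₀)).extend hg hH h3 ho
    (ord_preimage ordConnected_Ioo 1 (-t₀)) ht₀ (by rw [mem_ofPred_eq, e0]; exact h1.zero) hb
    (by rw [e0]; exact h1.src) (by rw [stt_affine, e0, h1.init, one_smul])
  have e1 : 1 * t + -t₀ = t - t₀ := by ring
  have ht' : t ∈ {t | 1 * t + -t₀ ∈ Ioo (-ε) ε} := by rw [mem_ofPred_eq, e1]; exact ht
  have h5 : P216CP.geo g U a y =ᶠ[𝓝 t] fun t => σ (1 * t + -t₀) := by
    filter_upwards [ho.mem_nhds ht'] with z hz using (h4 z hz).2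
  refine ⟨(h4 t ht').1, ?_, ?_⟩
  · rw [h5.eq_of_nhds, e1]; exact (h2 _ ht).1
  · rw [stt_congr h5, stt_affine, e1, (h2 _ ht).2, one_smul]

/-- regularity of the flow at `(t, y)` -/
structure Good (g : Ten E M) (U : Set M) (a : M) (y : E × E) (t : ℝ) : Prop where
  ev : ∀ᶠ p : ℝ × (E × E) in 𝓝 (t, y), p.1 ∈ Tm g U a p.2
  cont : ContinuousAt (fun p : ℝ × (E × E) => geo g U a p.2 p.1) (t, y)
  smooth : ∀ b, geo g U a y t ∈ (chartAt E b).source →
    ContDiffAt ℝ ∞ (fun p : ℝ × (E × E) => stt (E := E) (geo g U a p.2) b p.1) (t, y)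

theorem Box.good {ε : ℝ} {W : Set (E × E)} {Φ : ℝ → E × E → E × E} (hB : Box g U b ε W Φ)
    (hg : Met g U) (hH : Hs U) {t₀ : ℝ} (ht : t - t₀ ∈ Ioo (-ε) ε)
    (h1 : ∀ᶠ z in 𝓝 y, t₀ ∈ Tm g U a z ∧ geo g U a z t₀ ∈ (chartAt E b).source)
    (h2 : ContDiffAt ℝ ∞ (fun z => stt (E := E) (geo g U a z) b t₀) y)
    (hW : stt (geo g U a y) b t₀ ∈ W) : Good g U a y t := by
  have h3 : ∀ᶠ z in 𝓝 y, stt (P216CP.geo g U a z) b t₀ ∈ W :=
    h2.continuousAt.eventually (hB.isOpen.mem_nhds hW)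
  have h4 := (continuous_snd.tendsto ((t, y) : ℝ × (E × E))).eventually (h1.and h3)
  have h5 : ∀ᶠ p : ℝ × (E × E) in 𝓝 (t, y), p.1 - t₀ ∈ Ioo (-ε) ε := by
    have : ContinuousAt (fun p : ℝ × (E × E) => p.1 - t₀) (t, y) := by fun_prop
    exact this.eventually (isOpen_Ioo.mem_nhds ht)
  have h6 : ∀ᶠ p : ℝ × (E × E) in 𝓝 (t, y), p.1 ∈ Tm g U a p.2 ∧
      P216CP.geo g U a p.2 p.1 ∈ (chartAt E b).source ∧
      stt (P216CP.geo g U a p.2) b p.1 = Φ (p.1 - t₀) (stt (P216CP.geo g U a p.2) b t₀) := by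
    filter_upwards [h4, h5] with p hp4 hp5
    exact hB.follow hg hH hp4.1.1 hp4.1.2 hp4.2 hp5
  have h8 : ContDiffAt ℝ ∞
      (fun p : ℝ × (E × E) => stt (E := E) (P216CP.geo g U a p.2) b p.1) (t, y) := by
    refine ContDiffAt.congr_of_eventuallyEq ?_ (h6.mono fun p hp => hp.2.2)
    have h9 : ContDiffAt ℝ ∞ (fun p : ℝ × (E × E) => Φ p.1 p.2)
        (t - t₀, stt (P216CP.geo g U a y) b t₀) :=
      hB.smooth.contDiffAt ((isOpen_Ioo.prod hB.isOpen).mem_nhds ⟨ht, hW⟩)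
    have h10 : ContDiffAt ℝ ∞ (fun p : ℝ × (E × E) =>
        (p.1 - t₀, stt (E := E) (P216CP.geo g U a p.2) b t₀)) (t, y) :=
      (contDiffAt_fst.sub contDiffAt_const).prodMk
        (ContDiffAt.comp (t, y) (g := fun z => stt (E := E) (P216CP.geo g U a z) b t₀) h2
          contDiffAt_snd)
    exact ContDiffAt.comp (t, y) h9 h10
  have h11 : P216CP.geo g U a y t ∈ (chartAt E b).source := h6.self_of_nhds.2.1
  have hc : ContinuousAt (fun p : ℝ × (E × E) => P216CP.geo g U a p.2 p.1) (t, y) := by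
    have h12 : (fun p : ℝ × (E × E) => P216CP.geo g U a p.2 p.1) =ᶠ[𝓝 (t, y)]
        fun p => (chartAt E b).symm (stt (P216CP.geo g U a p.2) b p.1).1 := by
      filter_upwards [h6] with p hp using (symmCc' hp.2.1).symm
    refine ContinuousAt.congr ?_ h12.symm
    have h13 : ContinuousAt (chartAt E b).symm (stt (P216CP.geo g U a y) b t).1 :=
      (chartAt E b).symm.continuousAt (cc_mem_target h11)
    exact ContinuousAt.comp (f := fun p : ℝ × (E × E) => (stt (P216CP.geo g U a p.2) b p.1).1)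
      h13 h8.continuousAt.fst
  refine ⟨h6.mono fun p hp => hp.1, hc, fun c hcs => ?_⟩
  have e3 : (fun p : ℝ × (E × E) => stt (E := E) (P216CP.geo g U a p.2) c p.1) =ᶠ[𝓝 (t, y)]
      fun p => tst b c (stt (P216CP.geo g U a p.2) b p.1) := by
    filter_upwards [h6, hc.eventually ((chartAt E c).open_source.mem_nhds hcs)] with p hp hpc
    exact stt_trans (geo_contAt hg hH hp.1) hp.2.1 hpc
      ((isGeo_geo hg hH).eqn b p.1 hp.1 hp.2.1).1
  refine ContDiffAt.congr_of_eventuallyEq ?_ e3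
  have h3 : ContDiffAt ℝ ∞ (tst b c) (stt (P216CP.geo g U a y) b t) :=
    contDiffAt_tst b c (cc_mem_target h11) (by
      change (chartAt E b).symm (cc (P216CP.geo g U a y) b t) ∈ _
      rw [symmCc' h11]; exact hcs)
  exact ContDiffAt.comp (t, y) h3 h8

theorem good_zero (hg : Met g U) (hH : Hs U) (hy : y.1 ∈ dom E a U) : Good g U a y 0 := by
  obtain ⟨ε, W, Φ, hB, hyW⟩ := exists_box hg hy
  have h1 : ∀ᶠ z : E × E in 𝓝 y, z.1 ∈ dom E a U :=
    continuous_fst.continuousAt.eventually ((met_on hg a).mem_nhds hy)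
  refine hB.good hg hH (t₀ := 0) ⟨by linarith [hB.pos], by linarith [hB.pos]⟩ ?_ ?_ ?_
  · filter_upwards [h1] with z hz using ⟨(sol_geo hg hH hz).zero, (sol_geo hg hH hz).src⟩
  · refine contDiffAt_id.congr_of_eventuallyEq ?_
    filter_upwards [h1] with z hz using (sol_geo hg hH hz).init
  · rw [(sol_geo hg hH hy).init]; exact hyW

theorem good_local (hg : Met g U) (hH : Hs U) {t₁ : ℝ} (ht₁ : t₁ ∈ Tm g U a y) :
    ∃ δ > 0, ∀ t₀ t, |t₀ - t₁| < δ → |t - t₁| < δ → Good g U a y t₀ → Good g U a y t := by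
  set b := geo g U a y t₁ with hbdef
  have hb : geo g U a y t₁ ∈ (chartAt E b).source := mem_chart_source E _
  have hG := isGeo_geo (a := a) (y := y) hg hH
  obtain ⟨ε, W, Φ, hB, hxW⟩ := exists_box (y := stt (geo g U a y) b t₁) hg (hG.cc_mem ht₁ hb)
  have h1 : ∀ᶠ t in 𝓝 t₁, stt (geo g U a y) b t ∈ W :=
    (hG.hasDerivAt_stt ht₁ hb).continuousAt.eventually (hB.isOpen.mem_nhds hxW)
  have h2 := eventually_source (E := E) (geo_contAt hg hH ht₁) hb
  obtain ⟨δ, hδ, hball⟩ := Metric.eventually_nhds_iff.1 (h1.and h2)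
  have hε := hB.pos
  refine ⟨min δ (ε / 2), by positivity, fun t₀ t ht₀ ht hgood => ?_⟩
  have h3 := hball (y := t₀) (by rw [Real.dist_eq]; exact lt_of_lt_of_le ht₀ (min_le_left _ _))
  have e1 := abs_lt.1 (lt_of_lt_of_le ht₀ (min_le_right _ _))
  have e2 := abs_lt.1 (lt_of_lt_of_le ht (min_le_right _ _))
  have h4 : ContinuousAt (fun z : E × E => ((t₀, z) : ℝ × (E × E))) y := by fun_prop
  refine hB.good hg hH (t₀ := t₀) ⟨by linarith [e1.2, e2.1], by linarith [e1.1, e2.2]⟩ ?_ ?_ h3.1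
  · have h6 : ContinuousAt (fun z : E × E => geo g U a z t₀) y :=
      ContinuousAt.comp (g := fun p : ℝ × (E × E) => geo g U a p.2 p.1) hgood.cont h4
    exact (h4.eventually hgood.ev).and
      (h6.eventually ((chartAt E b).open_source.mem_nhds h3.2))
  · exact ContDiffAt.comp (g := fun p : ℝ × (E × E) => stt (E := E) (geo g U a p.2) b p.1) y
      (hgood.smooth b h3.2) (contDiffAt_const.prodMk contDiffAt_id)

/-- The flow is defined on an open set and smooth. -/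
theorem good_of_mem (hg : Met g U) (hH : Hs U) (ht : t ∈ Tm g U a y) : Good g U a y t := by
  set u : Set ℝ := {x | x ∈ Tm g U a y ∧ Good g U a y x} with hu
  have huo : IsOpen u := by
    rw [isOpen_iff_mem_nhds]
    rintro x ⟨hx, hx'⟩
    obtain ⟨δ, hδ, h⟩ := good_local hg hH hx
    filter_upwards [isOpen_Tm.mem_nhds hx, Metric.ball_mem_nhds x hδ] with z hz hz'
    exact ⟨hz, h x z (by simpa using hδ) hz' hx'⟩
  have h0 := zero_mem_Tm_of ht
  have hsub : Tm g U a y ⊆ u := by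
    refine ordConnected_Tm.isPreconnected.subset_of_closure_inter_subset huo
      ⟨0, h0, h0, good_zero hg hH (mem_dom_of_Tm ht)⟩ ?_
    rintro x ⟨hxc, hx⟩
    obtain ⟨δ, hδ, h⟩ := good_local hg hH hx
    obtain ⟨z, hz, hz'⟩ := Metric.mem_closure_iff.1 hxc δ hδ
    rw [dist_comm] at hz'
    exact ⟨hx, h z x hz' (by simpa using hδ) hz.2⟩
  exact (hsub ht).2

end Vale.Agent.P216CP
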