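import Vale.Agent.P216R.Defs

/-!
# P216CP/Geo: geodesics of a Riemannian metric on an open subset `U` of a manifold

`IsGeo g U γ s` is `Geo g γ s` together with `γ t ∈ U`; uniqueness, constant speed.
-/

open scoped Manifold ContDiff Topology
open Set Filter
open Vale.Agent.P219.RG Vale.Agent.P216R

noncomputable section

set_option maxSynthPendingDepth 3

namespace Vale.Agent.P216CP

variable {E : Type} [NormedAddCommGroup E] [NormedSpace ℝ E]
variable {M : Type} [TopologicalSpace M] [ChartedSpace E M]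

/-- `γ` is a geodesic in `U` on the set of times `s` (usually open). -/
structure IsGeo (g : Ten E M) (U : Set M) (γ : ℝ → M) (s : Set ℝ) : Prop extends Geo g γ s where
  mem : ∀ t ∈ s, γ t ∈ U

/-- position and velocity in the chart at `a` -/
def stt (γ : ℝ → M) (a : M) (t : ℝ) : E × E := (cc γ a t, deriv (cc γ a) t)

/-- velocity in the preferred chart (equal to `P216R.vel` for differentiable curves) -/
def dv (γ : ℝ → M) (t : ℝ) : E := deriv (cc (E := E) γ (γ t)) t

/-- The square of the speed of a curve. -/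
def sp (g : Ten E M) (γ : ℝ → M) (t : ℝ) : ℝ := g (γ t) (dv γ t) (dv γ t)

variable {g : Ten E M} {U : Set M} {γ γ' : ℝ → M} {s s' : Set ℝ} {t : ℝ}

omit [NormedSpace ℝ E] in
theorem mem_dom {a m : M} (ha : m ∈ (chartAt E a).source) (hm : m ∈ U) :
    chartAt E a m ∈ dom E a U :=
  ⟨(chartAt E a).map_source ha, by simpa only [mem_preimage, (chartAt E a).left_inv ha] using hm⟩

omit [NormedSpace ℝ E] in
theorem self_mem_dom {m : M} (hm : m ∈ U) : chartAt E m m ∈ dom E m U :=
  mem_dom (mem_chart_source E m) hm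

omit [NormedSpace ℝ E] in
theorem cc_mem_dom {a : M} (ha : γ t ∈ (chartAt E a).source) (hm : γ t ∈ U) :
    cc (E := E) γ a t ∈ dom E a U := mem_dom ha hm

omit [NormedSpace ℝ E] [ChartedSpace E M] in
theorem hs_eq_of_frequently (h : Hs U) {X : Type} [TopologicalSpace X] {f k : X → M} {x : X}
    (hf : ContinuousAt f x) (hk : ContinuousAt k x) (h1 : f x ∈ U) (h2 : k x ∈ U)
    (he : ∃ᶠ y in 𝓝 x, f y = k y) : f x = k x := by
  by_contra hne
  obtain ⟨A, hA, B, hB, hAB⟩ := Filter.disjoint_iff.1 (h h1 h2 hne)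
  have h3 : ∀ᶠ y in 𝓝 x, f y ∈ A ∧ k y ∈ B := Filter.Eventually.and (hf hA) (hk hB)
  obtain ⟨y, hy, hyA, hyB⟩ := (he.and_eventually h3).exists
  rw [hy] at hyA
  exact disjoint_left.1 hAB hyA hyB

theorem g_nonneg (hg : Met g U) {m : M} (hm : m ∈ U) (v : E) : 0 ≤ g m v v :=
  nonneg_of_pos (hg.pos m hm) v

theorem vel_eq_dv (hγ : ContinuousAt γ t) (hd : DifferentiableAt ℝ (cc (E := E) γ (γ t)) t) :
    P216R.vel E γ t = dv γ t := by
  have h1 : HasMFDerivAt 𝓘(ℝ, ℝ) 𝓘(ℝ, E) γ t
      (ContinuousLinearMap.toSpanSingleton ℝ (dv (E := E) γ t)) := by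
    refine ⟨hγ, ?_⟩
    simp only [modelWithCornersSelf_coe, range_id]
    exact hd.hasDerivAt.hasFDerivAt.hasFDerivWithinAt
  rw [P216R.vel, h1.mfderiv]
  exact one_smul ℝ _

section Co

variable [IsManifold 𝓘(ℝ, E) ∞ M]

theorem co_apply (g : Ten E M) (a : M) {u : E} (hu : u ∈ (chartAt E a).target) {x : M}
    (hx : x = (chartAt E a).symm u) (v w : E) :
    co g a u v w = g x (fderiv ℝ (trans E a x) u v) (fderiv ℝ (trans E a x) u w) := by
  subst hx
  simp only [co, P216R.comap, md, mfderiv_chart_symm_eq a hu]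
  rfl

theorem co_self (g : Ten E M) (m : M) (v w : E) : co g m (chartAt E m m) v w = g m v w := by
  have hm := mem_chart_source E m
  have hu := (chartAt E m).map_source hm
  rw [co_apply g m hu ((chartAt E m).left_inv hm).symm, fderiv_trans_self m hu,
    fderiv_trans_self m hu]

theorem co_compat (g : Ten E M) (a b : M) {u : E} (hu : u ∈ (chartAt E a).target)
    (hb : (chartAt E a).symm u ∈ (chartAt E b).source) (v w : E) :
    co g b (trans E a b u) (fderiv ℝ (trans E a b) u v) (fderiv ℝ (trans E a b) u w)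
      = co g a u v w := by
  have hu' : trans E a b u ∈ (chartAt E b).target := (chartAt E b).map_source hb
  have e' : (chartAt E a).symm u = (chartAt E b).symm (trans E a b u) :=
    ((chartAt E b).left_inv hb).symm
  rw [co_apply g b hu' e', co_apply g a hu rfl,
    fderiv_trans_comp a b _ hu hb (mem_chart_source E _),
    fderiv_trans_comp a b _ hu hb (mem_chart_source E _)]

theorem co_compat' (g : Ten E M) {a b m : M} (ha : m ∈ (chartAt E a).source)
    (hb : m ∈ (chartAt E b).source) (v w : E) :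
    co g b (chartAt E b m) (fderiv ℝ (trans E a b) (chartAt E a m) v)
      (fderiv ℝ (trans E a b) (chartAt E a m) w) = co g a (chartAt E a m) v w := by
  have := co_compat g a b ((chartAt E a).map_source ha) (by rwa [(chartAt E a).left_inv ha]) v w
  rwa [trans_symm_source a b ha] at this

theorem met_on (hg : Met g U) (a : M) : IsMetricOn (co g a) (dom E a U) where
  isOpen := (chartAt E a).continuousOn_symm.isOpen_inter_preimage (chartAt E a).open_target
    hg.isOpen
  smooth := hg.smooth a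
  symm := fun u hu v w => by
    rw [co_apply g a hu.1 rfl, co_apply g a hu.1 rfl]
    exact hg.symm _ hu.2 _ _
  pos := fun u hu v hv => by
    rw [co_apply g a hu.1 rfl]
    exact hg.pos _ hu.2 _ fun h => hv (fderiv_trans_injective a _ hu.1 (mem_chart_source E _) h)

end Co

namespace IsGeo

theorem contAt (h : IsGeo g U γ s) (hs : IsOpen s) (ht : t ∈ s) :
    ContinuousAt γ t := h.cont.continuousAt (hs.mem_nhds ht)

theorem mono (h : IsGeo g U γ s) (hs : s' ⊆ s) : IsGeo g U γ s' :=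
  ⟨⟨h.cont.mono hs, fun a t ht ha => h.eqn a t (hs ht) ha⟩, fun t ht => h.mem t (hs ht)⟩

theorem congr (h : IsGeo g U γ s) (hs : IsOpen s) (he : EqOn γ' γ s) : IsGeo g U γ' s := by
  refine ⟨⟨h.cont.congr he, fun a t ht ha => ?_⟩, fun t ht => (he ht) ▸ h.mem t ht⟩
  have h1 : γ' =ᶠ[𝓝 t] γ := by
    filter_upwards [hs.mem_nhds ht] with x hx using he hx
  have h2 := cc_congr (E := E) h1 a
  have h3 : deriv (cc (E := E) γ' a) =ᶠ[𝓝 t] deriv (cc γ a) := h2.deriv
  rw [he ht] at ha
  obtain ⟨e1, e2, e3⟩ := h.eqn a t ht ha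
  refine ⟨(h2.differentiableAt_iff).2 e1, (h3.differentiableAt_iff).2 e2, ?_⟩
  rw [h3.deriv_eq, e3, h2.eq_of_nhds, h3.eq_of_nhds]

theorem of_forall (hs : ∀ t ∈ s, ∃ u, IsOpen u ∧ t ∈ u ∧ IsGeo g U γ u) : IsGeo g U γ s := by
  refine ⟨⟨fun t ht => ?_, fun a t ht ha => ?_⟩, fun t ht => ?_⟩
  · obtain ⟨u, hu, htu, h⟩ := hs t ht
    exact (h.contAt hu htu).continuousWithinAt
  · obtain ⟨u, hu, htu, h⟩ := hs t ht
    exact h.eqn a t htu ha
  · obtain ⟨u, -, htu, h⟩ := hs t ht
    exact h.mem t htu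

theorem union (h : IsGeo g U γ s) (h' : IsGeo g U γ s') (hs : IsOpen s) (hs' : IsOpen s') :
    IsGeo g U γ (s ∪ s') :=
  of_forall fun _ ht => ht.elim (fun ht => ⟨s, hs, ht, h⟩) fun ht => ⟨s', hs', ht, h'⟩

theorem cc_mem (h : IsGeo g U γ s) (ht : t ∈ s) {a : M} (ha : γ t ∈ (chartAt E a).source) :
    cc (E := E) γ a t ∈ dom E a U := cc_mem_dom ha (h.mem t ht)

/-- Affine changes of the time. -/
theorem comp_affine (h : IsGeo g U γ s) (k c : ℝ) :
    IsGeo g U (fun t => γ (k * t + c)) {t | k * t + c ∈ s} := by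
  have hcont : Continuous fun t : ℝ => k * t + c := by fun_prop
  refine ⟨⟨h.cont.comp hcont.continuousOn (fun t ht => ht), fun a t ht ha => ?_⟩,
    fun t ht => h.mem _ ht⟩
  obtain ⟨h1, h2, h3⟩ := h.eqn a (k * t + c) ht ha
  have e1 : ∀ t, deriv (cc (E := E) (fun t => γ (k * t + c)) a) t
      = k • deriv (cc (E := E) γ a) (k * t + c) := by
    intro t
    have := deriv_comp_mul_left k (fun x => cc (E := E) γ a (x + c)) t
    rw [deriv_comp_add_const] at this
    exact this
  have e2 : deriv (cc (E := E) (fun t => γ (k * t + c)) a)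
      = fun t => k • deriv (cc (E := E) γ a) (k * t + c) := funext e1
  have hct : HasDerivAt (fun t : ℝ => k * t + c) k t := by
    simpa using ((hasDerivAt_id t).const_mul k).add_const c
  have h4 : HasDerivAt (fun x => k • deriv (cc (E := E) γ a) (k * x + c))
      (k • (k • deriv (deriv (cc (E := E) γ a)) (k * t + c))) t :=
    (h2.hasDerivAt.scomp t hct).const_smul k
  refine ⟨DifferentiableAt.comp (g := cc (E := E) γ a) t h1 hct.differentiableAt, ?_, ?_⟩
  · rw [e2]; exact h4.differentiableAt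
  · rw [e2, h4.deriv, h3]
    have e4 : cc (E := E) (fun t => γ (k * t + c)) a t = cc (E := E) γ a (k * t + c) := rfl
    rw [e4, chris_smul_left, chris_smul_right]
    simp

/-- The first order form of the geodesic equation. -/
theorem hasDerivAt_stt (h : IsGeo g U γ s) (ht : t ∈ s) {a : M}
    (ha : γ t ∈ (chartAt E a).source) :
    HasDerivAt (stt (E := E) γ a) (geoField (co g a) (stt γ a t)) t := by
  obtain ⟨e1, e2, e3⟩ := h.eqn a t ht ha
  have := e1.hasDerivAt.prodMk e2.hasDerivAt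
  rw [e3] at this
  exact this

theorem hasDerivAt_cc (h : IsGeo g U γ s) (ht : t ∈ s) {a : M}
    (ha : γ t ∈ (chartAt E a).source) :
    HasDerivAt (cc (E := E) γ a) (deriv (cc γ a) t) t := (h.eqn a t ht ha).1.hasDerivAt

end IsGeo

theorem stt_congr (h : γ =ᶠ[𝓝 t] γ') (a : M) : stt (E := E) γ a t = stt γ' a t := by
  have h2 := cc_congr (E := E) h a
  simp only [stt, h2.eq_of_nhds, h2.deriv_eq]

theorem dv_congr (h : γ =ᶠ[𝓝 t] γ') : dv (E := E) γ t = dv γ' t := by
  have h2 := cc_congr (E := E) h (γ t)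
  simp only [dv, ← h.eq_of_nhds, h2.deriv_eq]

theorem sp_congr (h : γ =ᶠ[𝓝 t] γ') : sp g γ t = sp g γ' t := by
  simp only [sp, dv_congr (E := E) h, h.eq_of_nhds]

theorem stt_affine (γ : ℝ → M) (a : M) (k c t : ℝ) :
    stt (E := E) (fun t => γ (k * t + c)) a t
      = ((stt γ a (k * t + c)).1, k • (stt γ a (k * t + c)).2) := by
  have := deriv_comp_mul_left k (fun x => cc (E := E) γ a (x + c)) t
  rw [deriv_comp_add_const] at this
  exact Prod.ext rfl this

theorem dv_affine (γ : ℝ → M) (k c t : ℝ) :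
    dv (E := E) (fun t => γ (k * t + c)) t = k • dv γ (k * t + c) :=
  congrArg Prod.snd (stt_affine γ (γ (k * t + c)) k c t)

theorem sp_affine (γ : ℝ → M) (k c t : ℝ) :
    sp g (fun t => γ (k * t + c)) t = k ^ 2 * sp g γ (k * t + c) := by
  simp only [sp, dv_affine, map_smul, smul_apply, smul_eq_mul]
  ring

variable [FiniteDimensional ℝ E] [IsManifold 𝓘(ℝ, E) ∞ M]

/-- Local uniqueness. -/
theorem IsGeo.eventuallyEq (hg : Met g U) (h : IsGeo g U γ s) (h' : IsGeo g U γ' s)
    (hs : IsOpen s) (ht : t ∈ s) {a : M} (ha : γ t ∈ (chartAt E a).source)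
    (ha' : γ' t ∈ (chartAt E a).source) (hv : stt (E := E) γ a t = stt γ' a t) :
    γ =ᶠ[𝓝 t] γ' := by
  have hG := met_on hg a
  set y0 : E × E := stt γ a t with hy0
  have hCd : ContDiffAt ℝ 1 (geoField (co g a)) y0 :=
    (hG.contDiffAt_geoField (h.cc_mem ht ha)).of_le (by simp only [WithTop.one_le_coe, le_top])
  obtain ⟨K, V, hV, hK⟩ := hCd.exists_lipschitzOnWith
  have key : ∀ σ : ℝ → M, IsGeo g U σ s → σ t ∈ (chartAt E a).source → stt σ a t = y0 →
      ∀ᶠ x in 𝓝 t, HasDerivAt (stt (E := E) σ a) (geoField (co g a) (stt σ a x)) x ∧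
        stt (E := E) σ a x ∈ V := by
    intro σ hσ hσa hσ0
    have h1 := eventually_source (hσ.contAt hs ht) hσa
    have h3 : ContinuousAt (stt (E := E) σ a) t := (hσ.hasDerivAt_stt ht hσa).continuousAt
    have h4 := h3.preimage_mem_nhds (t := V) (by rw [hσ0]; exact hV)
    filter_upwards [h1, hs.mem_nhds ht, h4] with x hx1 hx2 hx4
    exact ⟨hσ.hasDerivAt_stt hx2 hx1, hx4⟩
  have e1 := key γ h ha rfl
  have e2 := key γ' h' ha' hv.symm
  have := ODE_solution_unique_of_eventually (v := fun _ => geoField (co g a))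
    (s := fun _ => V) (K := K) (t₀ := t) (f := stt (E := E) γ a) (g := stt (E := E) γ' a)
    (Eventually.of_forall fun _ => hK) e1 e2 hv
  filter_upwards [this, eventually_source (h.contAt hs ht) ha,
    eventually_source (h'.contAt hs ht) ha'] with x hx hx1 hx2
  have h5 : cc (E := E) γ a x = cc γ' a x := congrArg Prod.fst hx
  rw [← symm_ccT (E := E) a hx1, ← symm_ccT (E := E) a hx2, h5]

/-- Uniqueness of geodesics on intervals. -/
theorem IsGeo.eqOn (hg : Met g U) (hH : Hs U) (h : IsGeo g U γ s) (h' : IsGeo g U γ' s)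
    (hs : IsOpen s) (hp : IsPreconnected s) (ht : t ∈ s) {a : M}
    (ha : γ t ∈ (chartAt E a).source) (ha' : γ' t ∈ (chartAt E a).source)
    (hv : stt (E := E) γ a t = stt γ' a t) : EqOn γ γ' s := by
  set u : Set ℝ := {x | x ∈ s ∧ γ =ᶠ[𝓝 x] γ'} with hu
  have huo : IsOpen u := by
    rw [isOpen_iff_mem_nhds]
    rintro x ⟨hx, hx'⟩
    filter_upwards [hs.mem_nhds hx, hx'.eventually_nhds] with y hy hy'
    exact ⟨hy, hy'⟩
  have hne : (s ∩ u).Nonempty := ⟨t, ht, ht, h.eventuallyEq hg h' hs ht ha ha' hv⟩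
  have hsub : s ⊆ u := by
    refine hp.subset_of_closure_inter_subset huo hne ?_
    rintro x ⟨hxc, hxs⟩
    refine ⟨hxs, ?_⟩
    have hfreq : ∃ᶠ y in 𝓝 x, y ∈ u := mem_closure_iff_frequently.1 hxc
    have hxe : γ x = γ' x := hs_eq_of_frequently hH (h.contAt hs hxs) (h'.contAt hs hxs)
      (h.mem x hxs) (h'.mem x hxs) (hfreq.mono fun y hy => hy.2.eq_of_nhds)
    have hb : γ x ∈ (chartAt E (γ x)).source := mem_chart_source E (γ x)
    have hb' : γ' x ∈ (chartAt E (γ x)).source := hxe ▸ hb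
    refine h.eventuallyEq hg h' hs hxs hb hb' ?_
    exact tendsto_nhds_unique_of_frequently_eq (h.hasDerivAt_stt hxs hb).continuousAt
      (h'.hasDerivAt_stt hxs hb').continuousAt (hfreq.mono fun y hy => stt_congr hy.2 _)
  intro x hx
  exact (hsub hx).2.eq_of_nhds

omit [FiniteDimensional ℝ E] in
theorem stt_trans (hγ : ContinuousAt γ t) {a b : M} (ha : γ t ∈ (chartAt E a).source)
    (hb : γ t ∈ (chartAt E b).source) (hd : DifferentiableAt ℝ (cc (E := E) γ a) t) :
    stt (E := E) γ b t = tst a b (stt γ a t) :=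
  Prod.ext (cc_trans ha) (deriv_cc hγ ha hb hd)

omit [FiniteDimensional ℝ E] in
theorem sp_chart (hγ : ContinuousAt γ t) {a : M}
    (ha : γ t ∈ (chartAt E a).source) (hd : DifferentiableAt ℝ (cc (E := E) γ a) t) :
    sp g γ t = co g a (cc γ a t) (deriv (cc γ a) t) (deriv (cc γ a) t) := by
  have hb : γ t ∈ (chartAt E (γ t)).source := mem_chart_source E (γ t)
  have h1 := co_compat' g ha hb (deriv (cc γ a) t) (deriv (cc γ a) t)
  have h2 := deriv_cc hγ ha hb hd
  rw [sp, dv, h2, ← co_self]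
  exact h1

omit [FiniteDimensional ℝ E] [IsManifold 𝓘(ℝ, E) ∞ M] in
theorem IsGeo.vel_eq (h : IsGeo g U γ s) (hs : IsOpen s) (ht : t ∈ s) :
    P216R.vel E γ t = dv γ t :=
  vel_eq_dv (h.contAt hs ht) (h.eqn _ t ht (mem_chart_source E _)).1

omit [FiniteDimensional ℝ E] [IsManifold 𝓘(ℝ, E) ∞ M] in
theorem IsGeo.spd_eq (h : IsGeo g U γ s) (hs : IsOpen s) (ht : t ∈ s) :
    spd g γ t = √(sp g γ t) := by
  rw [spd, h.vel_eq hs ht, sp]

theorem IsGeo.hasDerivAt_sp (hg : Met g U) (h : IsGeo g U γ s) (hs : IsOpen s) (ht : t ∈ s) :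
    HasDerivAt (sp g γ) 0 t := by
  have ha : γ t ∈ (chartAt E (γ t)).source := mem_chart_source E (γ t)
  set a := γ t with hadef
  obtain ⟨e1, e2, e3⟩ := h.eqn a t ht ha
  have h1 := (met_on hg a).hasDerivAt_inner (h.cc_mem ht ha) e1 e2 e2
  have h2 : covD (co g a) (cc γ a) (deriv (cc γ a)) t = 0 := by
    rw [covD, e3]; simp
  rw [h2] at h1
  simp only [map_zero, zero_add, zero_apply] at h1
  refine h1.congr_of_eventuallyEq ?_
  filter_upwards [eventually_source (h.contAt hs ht) ha, hs.mem_nhds ht] with x hx hxs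
  exact sp_chart (h.contAt hs hxs) hx (h.eqn a x hxs hx).1

theorem IsGeo.sp_const (hg : Met g U) (h : IsGeo g U γ s) (hs : IsOpen s) (hp : IsPreconnected s)
    {x y : ℝ} (hx : x ∈ s) (hy : y ∈ s) : sp g γ x = sp g γ y :=
  hs.is_const_of_deriv_eq_zero hp
    (fun _ hz => (h.hasDerivAt_sp hg hs hz).differentiableAt.differentiableWithinAt)
    (fun _ hz => (h.hasDerivAt_sp hg hs hz).deriv) hx hy

/-- A solution of the geodesic equation in one chart gives a geodesic. -/
theorem isGeo_of_chart (hg : Met g U) (a : M) {c : ℝ → E × E} {s : Set ℝ} (hs : IsOpen s)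
    (hc : ∀ t ∈ s, (c t).1 ∈ dom E a U ∧ HasDerivAt c (geoField (co g a) (c t)) t) :
    IsGeo g U (fun t => (chartAt E a).symm (c t).1) s ∧
      ∀ t ∈ s, (chartAt E a).symm (c t).1 ∈ (chartAt E a).source ∧
        stt (fun t => (chartAt E a).symm (c t).1) a t = c t := by
  have hd : ∀ t ∈ s, HasDerivAt (fun t => (c t).1) (c t).2 t := fun t ht => (hc t ht).2.fst
  have hd2 : ∀ t ∈ s, HasDerivAt (fun t => (c t).2) (- chris (co g a) (c t).1 (c t).2 (c t).2) t :=
    fun t ht => (hc t ht).2.snd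
  refine ⟨⟨⟨?_, ?_⟩, fun t ht => (hc t ht).1.2⟩, fun t ht => ⟨?_, ?_⟩⟩
  · refine (chartAt E a).continuousOn_symm.comp
      (fun t ht => (hd t ht).continuousAt.continuousWithinAt) (fun t ht => (hc t ht).1.1)
  · intro b t ht hb
    have hder : deriv (fun t => (c t).1) =ᶠ[𝓝 t] fun t => (c t).2 := by
      filter_upwards [hs.mem_nhds ht] with x hx using (hd x hx).deriv
    have htr : ContDiffAt ℝ ∞ (trans E a b) (c t).1 := contDiffAt_trans_chart a b (hc t ht).1.1 hb
    have hiso : ∀ᶠ x in 𝓝 (c t).1, ∀ v w, co g b (trans E a b x) (fderiv ℝ (trans E a b) x v)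
        (fderiv ℝ (trans E a b) x w) = co g a x v w := by
      filter_upwards [eventually_trans a b (hc t ht).1.1 hb] with x hx v w
      exact co_compat g a b hx.1 hx.2 v w
    exact (met_on hg a).geodesic_trans (c := fun t => (c t).1) (met_on hg b) (hc t ht).1
      (mem_dom hb (hc t ht).1.2) htr hiso
      (by filter_upwards [hs.mem_nhds ht] with x hx using (hd x hx).differentiableAt)
      ((hder.differentiableAt_iff).2 (hd2 t ht).differentiableAt)
      (by rw [hder.deriv_eq, (hd2 t ht).deriv, hder.eq_of_nhds])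
  · exact (chartAt E a).map_target (hc t ht).1.1
  · have h1 : cc (E := E) (fun t => (chartAt E a).symm (c t).1) a =ᶠ[𝓝 t] fun t => (c t).1 := by
      filter_upwards [hs.mem_nhds ht] with x hx using (chartAt E a).right_inv (hc x hx).1.1
    simp only [stt, h1.eq_of_nhds, h1.deriv_eq, (hd t ht).deriv]

end Vale.Agent.P216CP
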