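import Vale.Agent.P216FA.Plan
import Vale.Agent.P216FB.Plan
import Vale.Agent.P216BF.Ball
import Vale.Agent.P216BF.Scal
import Vale.Agent.P216B.Fam
import Vale.Agent.P216R.Flow

/-!
# P216CP/Win: the backward window exists unless it is stopped by a birth
-/

open scoped Manifold ContDiff Topology ENNReal
open Set Filter MeasureTheory

set_option maxSynthPendingDepth 3

noncomputable section

namespace Vale.Agent.P216CP

open Vale.Agent.P216R Vale.Agent.P216BF Vale.Agent.P216DC Vale.Agent.P216FA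

/-- induction on a real interval -/
theorem real_ind {P : ℝ → Prop} {T : ℝ} (hT : 0 ≤ T) (h0 : P 0)
    (hlim : ∀ S ∈ Ioc 0 T, (∀ σ ∈ Ico 0 S, P σ) → P S)
    (hstep : ∀ S ∈ Ico 0 T, P S → ∃ S' > S, ∀ σ ∈ Icc S S', P σ) : P T := by
  set A := {S | S ∈ Icc 0 T ∧ ∀ σ ∈ Icc 0 S, P σ} with hA
  have hb : BddAbove A := ⟨T, fun S hS => hS.1.2⟩
  have h0A : (0 : ℝ) ∈ A := ⟨⟨le_rfl, hT⟩, fun σ hσ => le_antisymm hσ.2 hσ.1 ▸ h0⟩
  have h1 : 0 ≤ sSup A := le_csSup hb h0A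
  have h2 : sSup A ≤ T := csSup_le ⟨0, h0A⟩ fun S hS => hS.1.2
  have h3 : ∀ σ ∈ Ico 0 (sSup A), P σ := fun σ hσ => by
    obtain ⟨S, hS, h⟩ := exists_lt_of_lt_csSup ⟨0, h0A⟩ hσ.2
    exact hS.2 σ ⟨hσ.1, h.le⟩
  have h4 : P (sSup A) := by
    rcases h1.eq_or_lt with e | h
    · exact e ▸ h0
    · exact hlim _ ⟨h, h2⟩ h3
  rcases h2.eq_or_lt with e | h
  · exact e ▸ h4
  · obtain ⟨S', hS', h5⟩ := hstep _ ⟨h1, h⟩ h4
    have : min S' T ∈ A := ⟨⟨le_min (h1.trans hS'.le) hT, min_le_right _ _⟩, fun σ hσ => by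
      rcases lt_or_ge σ (sSup A) with h6 | h6
      · exact h3 σ ⟨hσ.1, h6⟩
      · exact h5 σ ⟨h6, hσ.2.trans (min_le_left _ _)⟩⟩
    exact absurd (le_csSup hb this) (not_le.2 (lt_min hS' h))

variable {M : Type} [TopologicalSpace M] [ChartedSpace E3 M] [IsManifold 𝓘(ℝ, E3) ∞ M]

section static

variable {g : Ten E3 M} {U : Set M} {x z : M} {r : ℝ}

/-- points of a closed ball are limits of points of the open ball -/
theorem neBot_bl (hg : Met g U) (hH : Hs U) (hr : 0 < r) (hz : z ∈ cbl g U x r) :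
    (𝓝[bl g U x r] z).NeBot := by
  refine mem_closure_iff_nhdsWithin_neBot.1
    ((mem_closure_iff_nhds_basis (hg.hasBasis hH (cbl_subset hz))).2 fun ε hε => ?_)
  obtain ⟨hf, hd⟩ := (mem_cbl_iff hr.le).1 hz
  have h0 : 0 ≤ dd g U x z := dd_nonneg
  obtain ⟨m, h1, h2, h3, h4⟩ := exists_mid_dd hf (d := max (dd g U x z - ε / 2) 0) (ε := ε / 4)
    (le_max_right _ _) (max_le (by linarith) h0) (by positivity)
  refine ⟨m, mem_bl_iff.2 ⟨h1, ?_⟩, mem_bl_comm.1 (mem_bl_iff.2 ⟨h2, ?_⟩)⟩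
  · rw [h3]; exact max_lt (by linarith) hr
  · linarith [le_max_left (dd g U x z - ε / 2) 0]

theorem le_of_bl {Y : Type} [TopologicalSpace Y] [LinearOrder Y] [OrderClosedTopology Y]
    (hg : Met g U) (hH : Hs U) (hr : 0 < r) (hz : z ∈ cbl g U x r) {f : M → Y} {c : Y}
    (hf : ContinuousAt f z) (h : ∀ w ∈ bl g U x r, f w ≤ c) : f z ≤ c :=
  haveI := neBot_bl hg hH hr hz
  le_of_tendsto (hf.tendsto.mono_left nhdsWithin_le_nhds)
    (mem_of_superset self_mem_nhdsWithin h)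

theorem rmB_pin (hg : Met g U) (hx : x ∈ U) {α K : ℝ} (hp : Pin g U α) (hα : 0 < α)
    (hK : Real.exp 4 ≤ K * α) (hs : Sc g x ≤ K) : RmB g 0 x (4 * K) := by
  have h0 : 0 ≤ K := by
    by_contra h
    nlinarith [Real.exp_pos 4, not_le.1 h]
  have h1 := secGe_mono hg hx (hp x hx 1 one_pos) (κ' := -K) (neg_le_neg (max_le (by linarith)
    ((div_le_iff₀ hα).2 (by norm_num; linarith))))
  exact rmB_mono (rmB3 finrank_E3 hg hx h0 h0 h1 hs) (by linarith)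

end static

variable [MeasurableSpace M] {F : Dat M} {c : ℕ → ℝ} {κ CD r τ α r₀ τ₀ s u a q σ : ℝ}
  {W V : Set M} {y z : M}

omit [IsManifold 𝓘(ℝ, E3) ∞ M] in
theorem reg_sl (hB : F.Bas c) (h0 : F.T₀ < F.t - τ) (h : F.Reg r τ W s y) :
    Sl F.b F.d F.T₀ F.T₁ W s := by
  rcases h.prec with ⟨rfl, rfl⟩ | ⟨h1, rfl⟩
  · exact hB.sl
  · exact sl_post ⟨(h0.trans_le h.le).le, h1.trans_le hB.sl.mem_Icc.2⟩

omit [TopologicalSpace M] [ChartedSpace E3 M] [IsManifold 𝓘(ℝ, E3) ∞ M] [MeasurableSpace M] in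
theorem prec_trans {b d : M → ℝ} {U : Set M} {t : ℝ} (h : Prec b d U t W s) (h' : Prec b d W s V u) :
    Prec b d U t V u := by
  rcases h' with ⟨rfl, rfl⟩ | ⟨h1, rfl⟩
  · exact h
  · exact Or.inr ⟨h1.trans_le (h.elim (fun e => e.1.le) fun e => e.1.le), rfl⟩

omit [TopologicalSpace M] [ChartedSpace E3 M] [IsManifold 𝓘(ℝ, E3) ∞ M] [MeasurableSpace M] in
theorem prec_le {b d : M → ℝ} (h : Prec b d W s V u) : u ≤ s :=
  h.elim (fun e => e.1.le) fun e => e.1.le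

omit [TopologicalSpace M] [ChartedSpace E3 M] [IsManifold 𝓘(ℝ, E3) ∞ M] [MeasurableSpace M] in
theorem prec_mem {b d : M → ℝ} {T₀ T₁ : ℝ} (hW : Sl b d T₀ T₁ W s) (h : Prec b d W s V u)
    (hz : z ∈ W) (hb : b z ≤ u) : z ∈ V := by
  rcases h with ⟨rfl, rfl⟩ | ⟨h1, rfl⟩
  · exact hz
  · exact ⟨hb, h1.trans_le (hW.alive hz).2⟩

/-- the closed ball is alive on `[s - σ, s]` with bounded scalar curvature -/
structure Gw (F : Dat M) (W : Set M) (s : ℝ) (y : M) (ρ σ K : ℝ) : Prop where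
  liv : ∀ z ∈ cbl (F.g s) W y ρ, F.b z ≤ s - σ
  sc : ∀ z ∈ cbl (F.g s) W y ρ, ∀ u ∈ Icc (s - σ) s, Sc (F.g u) z ≤ K

/-- the hypotheses of the window lemma; the curvature level is `q ^ 2` -/
structure Wh (F : Dat M) (c : ℕ → ℝ) (κ CD r τ α r₀ a q : ℝ) (W : Set M) (s : ℝ) (y : M) :
    Prop where
  bas : F.Bas c
  env : F.Env κ CD r τ α
  CD0 : 0 ≤ CD
  q0 : 0 < q
  a0 : 0 < a
  aCD : (CD + 4) * a ≤ 1
  α0 : 0 < α
  age : Real.exp 4 ≤ 4 * q ^ 2 * α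
  reg : F.Reg r₀ τ W s y
  r1 : r₀ + 1 / q ≤ r
  r2 : 1 / q ≤ r
  t1 : F.t - τ ≤ s - (a / (2 * q)) ^ 2

namespace Wh

omit [IsManifold 𝓘(ℝ, E3) ∞ M] in
theorem sl (h : Wh F c κ CD r τ α r₀ a q W s y) : Sl F.b F.d F.T₀ F.T₁ W s :=
  reg_sl h.bas h.env.init h.reg

omit [IsManifold 𝓘(ℝ, E3) ∞ M] in
theorem met (h : Wh F c κ CD r τ α r₀ a q W s y) : Met (F.g s) W := h.bas.sf.met h.sl

omit [IsManifold 𝓘(ℝ, E3) ∞ M] in
theorem a4 (h : Wh F c κ CD r τ α r₀ a q W s y) : a ≤ 1 / 4 := by nlinarith [h.aCD, h.CD0, h.a0]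

theorem parB (h : Wh F c κ CD r τ α r₀ a q W s y) (hσ : σ ∈ Ioc 0 ((a / (2 * q)) ^ 2))
    (H : Gw F W s y (a / q) σ (4 * q ^ 2)) : ParB F.g W y s (a / q) σ (16 * q ^ 2) := by
  have hs : s - σ < s := by linarith [hσ.1]
  refine ⟨h.bas.sf.rf_of_born h.sl hs (h.met.isOpen_bl _ _) bl_subset
    fun z hz => H.liv z (bl_subset_cbl hz), fun u hu z hz => ?_⟩
  have hz' := h.sl.mem_liv (bl_subset hz) (H.liv z (bl_subset_cbl hz))
  obtain ⟨V, hV, hsub⟩ := h.bas.sf.exists_sl hs h.sl.mem_Icc.2 hz' hu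
  have := rmB_pin (h.bas.sf.met hV) (hsub hz') (h.env.pin V u hV
    ⟨by linarith [h.t1, hu.1, hσ.2], hu.2.trans (prec_le h.reg.prec)⟩) h.α0 h.age
    (H.sc z (bl_subset_cbl hz) u hu)
  rwa [← mul_assoc, show (4 * 4 : ℝ) = 16 by norm_num] at this

/-- the window lies in the region -/
theorem inreg (h : Wh F c κ CD r τ α r₀ a q W s y) (hσ : σ ≤ (a / (2 * q)) ^ 2)
    (H : Gw F W s y (a / q) σ (4 * q ^ 2)) (hz : z ∈ cbl (F.g s) W y (a / q))
    (hV : Prec F.b F.d W s V u) (hu : s - σ ≤ u) : F.Reg (r₀ + 1 / q) τ V u z := by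
  have hq := h.q0
  have ha := h.a0
  have ha4 := h.a4
  have haq : 0 < a / q := by positivity
  have hq1 : 0 < 1 / q := by positivity
  have hr : F.Reg r τ W s y := ⟨h.reg.prec, h.reg.le, h.reg.mem, h.reg.dle.trans (by
    linarith [h.r1])⟩
  have e1 : a / q = a * (1 / q) := by ring
  refine ⟨prec_trans h.reg.prec hV, by linarith [h.t1], prec_mem h.sl hV (cbl_subset hz)
    ((H.liv z hz).trans hu), ?_⟩
  rcases hV with ⟨rfl, rfl⟩ | ⟨h1, rfl⟩
  · have h2 := ((mem_cbl_iff haq.le).1 hz).2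
    nlinarith [h.env.d1 _ _ _ hr z (cbl_subset hz), h.reg.dle]
  · have hσ' : s - u ∈ Ioc 0 ((a / (2 * q)) ^ 2) := ⟨by linarith, by linarith⟩
    have H' : Gw F W s y (a / q) (s - u) (4 * q ^ 2) :=
      ⟨fun w hw => (H.liv w hw).trans (by linarith),
        fun w hw v hv => H.sc w hw v ⟨by linarith [hv.1], hv.2⟩⟩
    have hP := h.parB hσ' H'
    have e2 : 2 * (a / (2 * q)) = a / q := by field_simp
    have e3 : a / (2 * q) = a / 2 * (1 / q) := by ring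
    have h2 := h.env.d2 W s y hr (a / (2 * q)) ⟨by positivity, by nlinarith [h.r2]⟩ (s - u) hσ'
      (by linarith [h.t1, hσ'.2]) (by
        rw [e2]
        refine ⟨hP.1, fun v hv w hw => rmB_mono (hP.2 v hv w hw) ?_⟩
        rw [div_pow, one_div_div, le_div_iff₀ (by positivity)]
        nlinarith [mul_le_mul ha4 ha4 ha.le (by norm_num), sq_nonneg q])
    rw [sub_sub_cancel] at h2
    have hsub : ∀ w ∈ cbl (F.g s) W y (a / q), w ∈ postS F.b F.d u := fun w hw =>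
      prec_mem h.sl (Or.inr ⟨h1, rfl⟩) (cbl_subset hw) ((H.liv w hw).trans hu)
    have h3 : CD * (a / (2 * q)) + 2 * (a / q) ≤ 1 / q := by
      rw [e1, e3]; nlinarith [h.aCD, h.CD0, mul_nonneg h.CD0 ha.le]
    have hy : F.Reg r τ (postS F.b F.d u) u y :=
      ⟨prec_trans h.reg.prec (Or.inr ⟨h1, rfl⟩), by linarith [h.t1],
        hsub y (mem_cbl_self h.reg.mem), by linarith [h.reg.dle, h.r1]⟩
    have hm := h.bas.sf.met (reg_sl h.bas h.env.init hy)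
    have h4 : ed (F.g u) (postS F.b F.d u) y z ≤ ENNReal.ofReal (2 * (a / q)) := by
      refine le_of_bl h.met (h.bas.sf.sl_hs h.sl) haq hz (hm.continuousAt_ed_right y (hsub z hz))
        fun w hw => ?_
      have h5 := rf_bl_fwd hP.1 (ricB_of_parB finrank_E3 hP) (s := u) (t := s)
        ⟨by linarith, h1.le⟩ ⟨by linarith, le_rfl⟩ Subset.rfl
        (fun w hw => hsub w (bl_subset_cbl hw)) le_rfl hw
      refine le_trans (le_of_lt h5) (ENNReal.ofReal_le_ofReal (mul_le_mul_of_nonneg_right ?_ haq.le))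
      have h6 : 2 * (16 * q ^ 2) * |u - s| ≤ 1 / 2 := by
        rw [abs_sub_comm, abs_of_pos hσ'.1]
        calc _ ≤ 2 * (16 * q ^ 2) * (a / (2 * q)) ^ 2 := by gcongr; exact hσ'.2
          _ = 8 * (a * a) := by field_simp; ring
          _ ≤ _ := by nlinarith
      have h7 := Real.abs_exp_sub_one_le (x := 1 / 2) (by norm_num)
      refine (Real.exp_le_exp.2 h6).trans ?_
      have := (le_abs_self _).trans h7
      norm_num at this ⊢
      linarith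
    have h5 := ((mem_cbl_iff (by positivity)).1 h4).2
    linarith [h.env.d1 _ _ _ hy z (hsub z hz), h.reg.dle]

/-- **the window lemma** -/
theorem bwd (h : Wh F c κ CD r τ α r₀ a q W s y) {C₁ C₂ : ℝ} (hC₁ : 0 < C₁) (hC₂ : 0 ≤ C₂)
    (ha₁ : C₁ * a ≤ 1 / 2) (ha₂ : C₂ * a ≤ 1) (hy : Sc (F.g s) y ≤ q ^ 2)
    (hG : ∀ z, F.Reg r τ W s z → q ^ 2 < Sc (F.g s) z →
      gam (F.g s) (Sc (F.g s)) (Sc (F.g s)) z ≤ C₁ ^ 2 * Sc (F.g s) z ^ 3)
    (hT : ∀ V u z b, F.Reg r τ V u z → q ^ 2 < Sc (F.g u) z → u ∈ Ioo b s → F.b z ≤ b → z ∈ W →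
      |deriv (fun v => Sc (F.g v) z) u| ≤ C₂ * Sc (F.g u) z ^ 2) :
    Gw F W s y (a / q) ((a / (2 * q)) ^ 2) (4 * q ^ 2) ∨
      ∃ z, F.Born W s y z (a / q) ((a / (2 * q)) ^ 2) (4 * q ^ 2) (r₀ + 1 / q) := by
  have hq := h.q0
  have ha := h.a0
  have ha4 := h.a4
  have haq : 0 < a / q := by positivity
  have hq1 : 0 < 1 / q := by positivity
  have hq2 : 0 < q ^ 2 := by positivity
  have e1 : a / q = a * (1 / q) := by ring
  have hr : F.Reg r τ W s y := ⟨h.reg.prec, h.reg.le, h.reg.mem, h.reg.dle.trans (by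
    linarith [h.r1])⟩
  have hsT := h.sl.mem_Icc.2
  have h0 : ∀ z ∈ cbl (F.g s) W y (a / q), Sc (F.g s) z ≤ 9 / 5 * q ^ 2 := fun z hz => by
    have h1 := sqrt_max_lip h.met (x := y) (r := 2 * (a / q))
      (((sc_smooth h.met).of_le (by simp)).mono bl_subset) hq2 hC₁ (fun w hw hlt => hG w
        ⟨h.reg.prec, h.reg.le, bl_subset hw, by
          nlinarith [h.env.d1 _ _ _ hr w (bl_subset hw), (mem_bl_iff.1 hw).2, h.reg.dle, h.r1]⟩ hlt)
      (cbl_subset_bl (by positivity) (by linarith) hz)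
    rw [max_eq_right hy, Real.sqrt_sq hq.le] at h1
    have h2 := ((mem_cbl_iff haq.le).1 hz).2
    have h3 : 3 / 4 * q⁻¹ ≤ (√(max (Sc (F.g s) z) (q ^ 2)))⁻¹ := by
      have h4 := mul_le_mul_of_nonneg_left h2 (show 0 ≤ C₁ / 2 by positivity)
      rw [e1, one_div] at h4
      nlinarith [(abs_le.1 h1).2, inv_pos.2 hq]
    have h4 : 0 < √(max (Sc (F.g s) z) (q ^ 2)) := Real.sqrt_pos.2 (lt_max_of_lt_right hq2)
    have h5 : √(max (Sc (F.g s) z) (q ^ 2)) ≤ 4 / 3 * q := by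
      rw [le_inv_comm₀ (by positivity) h4] at h3
      refine h3.trans_eq (by field_simp)
    have h6 := (Real.sqrt_le_iff.1 h5).2
    nlinarith [le_max_left (Sc (F.g s) z) (q ^ 2)]
  rw [or_iff_not_imp_right]
  intro hn
  refine real_ind (P := fun σ => Gw F W s y (a / q) σ (4 * q ^ 2)) (sq_nonneg _)
    ⟨fun z hz => by simpa using (h.sl.alive (cbl_subset hz)).1, fun z hz u hu => ?_⟩
    (fun S hS H => ?_) fun S hS H => ?_
  · obtain rfl : u = s := le_antisymm hu.2 (by simpa using hu.1)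
    linarith [h0 z hz]
  · have h1 : ∀ z ∈ cbl (F.g s) W y (a / q), F.b z ≤ s - S := fun z hz =>
      le_of_forall_gt_imp_ge_of_dense fun v hv => by
        have := (H (max (s - v) 0) ⟨le_max_right _ _, max_lt (by linarith) hS.1⟩).liv z hz
        linarith [le_max_left (s - v) 0]
    refine ⟨h1, fun z hz => ?_⟩
    have hlt : s - S < s := by linarith [hS.1]
    have h2 := (sc_time (h.bas.sf.rf _ _ hlt hsT).toFam
      (h.sl.mem_liv (cbl_subset hz) (h1 z hz))).continuousOn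
    rw [← closure_Ioc hlt.ne] at h2 ⊢
    exact fun u hu => le_on_closure (g := fun _ => 4 * q ^ 2) (fun v hv =>
      (H (s - v) ⟨by linarith [hv.2], by linarith [hv.1]⟩).sc z hz v ⟨by linarith, hv.2⟩)
      h2 continuousOn_const hu
  · have h1 : ∀ z ∈ cbl (F.g s) W y (a / q), F.b z < s - S := fun z hz =>
      lt_of_le_of_ne (H.liv z hz) fun e => hn ⟨z, hz, by linarith [hS.2],
        fun v hv => H.sc z hz v (e ▸ hv),
        fun V v hV hv => (h.inreg hS.2.le H hz hV (e ▸ hv)).dle⟩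
    obtain ⟨s₂, hs₂, hg⟩ := exists_gap_left h.bas.sf.fin (s - S)
    have h2 : ∀ z ∈ cbl (F.g s) W y (a / q), F.b z ≤ s₂ := fun z hz =>
      not_lt.1 fun hlt => (hg z).1 ⟨hlt, h1 z hz⟩
    have hlt : s₂ < s := by linarith [hS.1]
    have hf := (h.bas.sf.rf _ _ hlt hsT).toFam
    have h3 : ∀ z ∈ cbl (F.g s) W y (a / q), z ∈ Liv F.b F.d s₂ s := fun z hz =>
      h.sl.mem_liv (cbl_subset hz) (h2 z hz)
    have hI : Icc (s - S) s ⊆ Icc s₂ s := Icc_subset_Icc_left hs₂.le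
    have h4 : ∀ z ∈ cbl (F.g s) W y (a / q), Sc (F.g (s - S)) z < 4 * q ^ 2 := fun z hz => by
      have := sc_le_two_mul (SF.fam_sub hf hI hf.isOpen Subset.rfl) (h3 z hz) hq2 hC₂
        (fun v hv hlt => by
          have hR := h.inreg hS.2.le H hz (Or.inr ⟨hv.2, rfl⟩) hv.1.le
          exact hT _ v z _ ⟨hR.prec, hR.le, hR.mem, hR.dle.trans (by linarith [h.r1])⟩ hlt hv
            (H.liv z hz) (cbl_subset hz))
        (s := s) (t := s - S) ⟨by linarith [hS.1], le_rfl⟩ ⟨le_rfl, by linarith [hS.1]⟩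
        (Q := 9 / 5 * q ^ 2) (by linarith) (h0 z hz) (by
          rw [sub_sub_cancel, abs_of_nonneg hS.1]
          calc _ ≤ C₂ * (a / (2 * q)) ^ 2 * (9 / 5 * q ^ 2) := by gcongr; exact hS.2.le
            _ = C₂ * a * a * (9 / 20) := by field_simp; ring
            _ ≤ _ := by nlinarith)
      linarith
    have h5 : ∀ᶠ v in 𝓝[Icc s₂ s] (s - S), ∀ z ∈ cbl (F.g s) W y (a / q),
        Sc (F.g v) z < 4 * q ^ 2 := by
      refine ev_compact (h.met.cpl (h.bas.sf.sl_cpt h.sl) y h.reg.mem _) fun z hz => ?_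
      have h6 := (sc_cont hf (s - S, z) ⟨hI ⟨le_rfl, by linarith [hS.1]⟩, h3 z hz⟩).eventually
        (gt_mem_nhds (h4 z hz))
      rwa [nhdsWithin_prod_eq, hf.isOpen.nhdsWithin_eq (h3 z hz)] at h6
    obtain ⟨η, hη, h6⟩ := Metric.eventually_nhds_iff.1 (eventually_nhdsWithin_iff.1 h5)
    refine ⟨S + min (η / 2) (s - S - s₂), by
      have := lt_min (half_pos hη) (sub_pos.2 hs₂); linarith, fun σ hσ => ?_⟩
    have h7 := min_le_left (η / 2) (s - S - s₂)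
    have h8 := min_le_right (η / 2) (s - S - s₂)
    refine ⟨fun z hz => (h2 z hz).trans (by linarith [hσ.2]), fun z hz v hv => ?_⟩
    rcases le_total (s - S) v with h9 | h9
    · exact H.sc z hz v ⟨h9, hv.2⟩
    · refine (h6 ?_ ⟨by linarith [hσ.2, hv.1], hv.2⟩ z hz).le
      rw [Real.dist_eq, abs_lt]
      constructor <;> linarith [hσ.2, hv.1]

end Wh

omit [IsManifold 𝓘(ℝ, E3) ∞ M] in
/-- a birth happens at a surgery time -/
theorem born_tip (hB : F.Bas c) (hW : Sl F.b F.d F.T₀ F.T₁ W s) (hz : z ∈ W) (h0 : F.T₀ < F.b z) :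
    z ∈ postS F.b F.d (F.b z) ∧ F.b z ∈ Ioo F.T₀ F.T₁ ∧
      ∃ p, Tip c (F.g (F.b z)) (postS F.b F.d (F.b z)) p F.h F.δ ∧
        z ∈ bl (F.g (F.b z)) (postS F.b F.d (F.b z)) p (c 0 * F.h) := by
  have h : F.b z < F.d z ∧ F.b z < F.T₁ := by
    rcases hW with ⟨ht, rfl⟩ | ⟨ht, rfl⟩
    · exact ⟨hz.1.trans_le hz.2, hz.1.trans_le ht.2⟩
    · exact ⟨hz.1.trans_lt hz.2, hz.1.trans_lt ht.2⟩
  exact ⟨⟨le_rfl, h.1⟩, ⟨h0, h.2⟩, (hB.srg _ ⟨h0, h.2⟩).born z ⟨le_rfl, h.1⟩ rfl⟩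

/-- **the window lemma** for canonical neighbourhoods, at any scale -/
theorem bwd (hT : RT) (hG : GR) (C : ℝ) (hC : 0 < C) : ∃ a₀ > 0,
    ∀ (M : Type) [TopologicalSpace M] [ChartedSpace E3 M] [IsManifold 𝓘(ℝ, E3) ∞ M]
      [MeasurableSpace M] (F : Dat M) (c : ℕ → ℝ) (κ CD r τ α r₀ a q A : ℝ) (W : Set M) (s : ℝ)
      (y : M), a ≤ a₀ → Wh F c κ CD r τ α r₀ a q W s y → Sc (F.g s) y ≤ q ^ 2 →
      (∀ V u z, F.Reg r τ V u z → q ^ 2 < Sc (F.g u) z → DT C A (F.g u) V z) →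
      Gw F W s y (a / q) ((a / (2 * q)) ^ 2) (4 * q ^ 2) ∨
        ∃ z, F.Born W s y z (a / q) ((a / (2 * q)) ^ 2) (4 * q ^ 2) (r₀ + 1 / q) := by
  obtain ⟨cT, hcT, hT⟩ := hT
  obtain ⟨cG, hcG, hG⟩ := hG
  have h1 : 0 < √cG * C := by positivity
  have h2 : 0 < cT * (C + C ^ 2) := by positivity
  refine ⟨min (1 / (2 * (√cG * C))) (1 / (cT * (C + C ^ 2))), by positivity,
    fun M _ _ _ _ F c κ CD r τ α r₀ a q A W s y ha h hy hD => ?_⟩
  refine h.bwd h1 h2.le ?_ ?_ hy (fun z hz hlt => ?_) fun V u z b hz hlt hu hb hW => ?_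
  · have := (le_div_iff₀ (by positivity)).1 (ha.trans (min_le_left _ _)); linarith
  · have := (le_div_iff₀ h2).1 (ha.trans (min_le_right _ _)); linarith
  · have h3 := (hG M _ W z _ h.met hz.mem).1 (hD _ _ _ hz hlt).r1
    have h4 : 0 ≤ Sc (F.g s) z := ((sq_nonneg q).trans_lt hlt).le
    rw [mul_pow, Real.sq_sqrt h4] at h3
    rw [mul_pow, Real.sq_sqrt hcG.le]
    exact h3.trans_eq (by ring)
  · have h3 := hT M F.g _ _ z u _ _ (h.bas.sf.rf b s (hu.1.trans hu.2) h.sl.mem_Icc.2)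
      (convex_Icc _ _) (by rw [interior_Icc]; exact ⟨u, hu⟩) (Ioo_subset_Icc_self hu)
      (h.sl.mem_liv hW hb) (hD _ _ _ hz hlt).r0 (hD _ _ _ hz hlt).r2
    rw [derivWithin_of_mem_nhds (Icc_mem_nhds hu.1 hu.2)] at h3
    exact h3.trans_eq (by ring)

theorem exp_four : Real.exp 4 ≤ 56 := by
  have h := Real.exp_one_lt_d9
  have : Real.exp 4 = Real.exp 1 ^ 4 := by rw [← Real.exp_nat_mul]; norm_num
  rw [this]
  exact (pow_le_pow_left₀ (Real.exp_pos 1).le h.le 4).trans (by norm_num)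

/-- **WIN** of `P216FA` -/
theorem winA (hT : RT) (hG : GR) : P216FA.WIN := by
  intro P e hP
  obtain ⟨a₀, ha₀, H⟩ := bwd hT hG P.C (by linarith [hP.C1])
  have hCD := hP.CD0
  refine ⟨min a₀ (1 / (P.CD + 4)), by positivity, fun a ha r T => ⟨max (max (r + 1) (T + 1)) 14,
    by positivity, r + 1, by linarith, fun X F W s y K hF hR hK hy => ?_⟩⟩
  have hK1 : 1 ≤ K := (le_max_right _ _).trans hK
  obtain ⟨q, hq, rfl⟩ : ∃ q, 0 < q ∧ q ^ 2 = K :=
    ⟨√K, Real.sqrt_pos.2 (by linarith), Real.sq_sqrt (by linarith)⟩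
  have hq1 : 1 ≤ q := by nlinarith
  have h1 : 1 / q ≤ 1 := (div_le_one hq).2 hq1
  have h2 : (P.CD + 4) * a ≤ 1 := by
    have := (le_div_iff₀ (by positivity)).1 (ha.2.trans (min_le_right _ _)); linarith
  have h3 : a / (2 * q) ≤ 1 := (div_le_one (by positivity)).2 (by nlinarith [ha.1])
  have h4 := le_max_left (max (r + 1) (T + 1)) 14
  have h5 := le_max_right (max (r + 1) (T + 1)) 14
  have h6 := le_max_left (r + 1) (T + 1)
  have h7 := le_max_right (r + 1) (T + 1)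
  have hts := hR.le
  have hW : Wh F P.c P.κ P.CD _ _ _ r a q W s y := ⟨hF.bas, hF.env, hCD, hq, ha.1, h2,
    by linarith, by nlinarith [exp_four], ⟨hR.prec, by linarith, hR.mem, hR.dle⟩, by linarith,
    by linarith, by linarith [pow_le_one₀ (div_pos ha.1 (by positivity : 0 < 2 * q)).le h3 (n := 2)]⟩
  have e1 : wr a (q ^ 2) = a / q := by rw [wr, Real.sqrt_sq hq.le]
  have e2 : wt a (q ^ 2) = (a / (2 * q)) ^ 2 := by rw [wt]; ring
  rw [e1, e2]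
  refine (H _ F _ _ _ _ _ _ _ a q P.A W s y (ha.2.trans (min_le_left _ _)) hW hy fun V u z hz hlt =>
    (hF.cn V u z hz (((le_max_left _ _).trans hK).trans hlt.le)).dt).imp
    (hW.parB ⟨pow_pos (div_pos ha.1 (by positivity)) 2, le_rfl⟩) fun ⟨z, hz⟩ =>
      ⟨z, hz.mem, hz.le, hz.sc, fun V σ h h' => (hz.reg V σ h h').trans (by linarith)⟩

/-- **WIN** of `P216FB` -/
theorem winB (hT : RT) (hG : GR) : P216FB.WIN := by
  intro P hP
  obtain ⟨a₀, ha₀, H⟩ := bwd hT hG P.C (by linarith [hP.C1])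
  have hCD := hP.CD0
  obtain ⟨a, ha, ha1, ha2⟩ : ∃ a > 0, a ≤ a₀ ∧ (P.CD + 4) * a ≤ 1 :=
    ⟨min a₀ (1 / (P.CD + 4)), by positivity, min_le_left _ _, by
      have := (le_div_iff₀ (by positivity)).1 (min_le_right a₀ (1 / (P.CD + 4))); linarith⟩
  obtain ⟨m, hm, hmL⟩ : ∃ m : ℝ, 4 ≤ m ∧ P.L ≤ m ^ 2 :=
    ⟨max 4 P.L, le_max_left _ _, by nlinarith [le_max_left 4 P.L, le_max_right 4 P.L]⟩
  have ha4 : a ≤ 1 / 4 := by nlinarith
  have hm0 : 0 < m := by linarith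
  refine ⟨(a / (2 * m)) ^ 2, by positivity, 16 * m ^ 2, by positivity,
    fun M _ _ _ _ _ F Q hδ hQ hh hx hF => ?_⟩
  obtain ⟨p, hp, rfl⟩ : ∃ p, 0 < p ∧ p ^ 2 = Q := ⟨√Q, Real.sqrt_pos.2 hQ, Real.sq_sqrt hQ.le⟩
  have hp2 : 0 < p ^ 2 := by positivity
  have hE := hF.env
  have hC := hF.cn
  rw [Real.sqrt_sq hp.le] at hE hC ⊢
  have h1 : 1 / (m * p) ≤ 1 / p := one_div_le_one_div_of_le hp (by nlinarith)
  have h2 : a / (2 * m) ≤ 1 := (div_le_one (by positivity)).2 (by linarith)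
  have h3 : (a / (2 * m)) ^ 2 ≤ a / (2 * m) := by
    rw [sq]; exact mul_le_of_le_one_right (by positivity) h2
  have e1 : (a / (2 * (m * p))) ^ 2 = (a / (2 * m)) ^ 2 / p ^ 2 := by field_simp
  have h4 : (a / (2 * m)) ^ 2 / p ^ 2 ≤ 1 / p ^ 2 := by gcongr; linarith
  have hW : Wh F P.c P.κ P.CD _ _ _ 0 a (m * p) F.U F.t F.x := ⟨hF.bas, hE, hCD, by positivity,
    ha, ha2, by positivity, by
      have : 4 * (m * p) ^ 2 * (1 / p ^ 2) = 4 * m ^ 2 := by field_simp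
      nlinarith [exp_four], ⟨Or.inl ⟨rfl, rfl⟩, by have := one_div_pos.2 hp2; linarith,
      hF.bas.mem, by linarith⟩, by linarith, h1, by linarith⟩
  have h5 : p ^ 2 ≤ (m * p) ^ 2 :=
    pow_le_pow_left₀ hp.le (le_mul_of_one_le_left hp.le (by linarith)) 2
  rcases H _ F _ _ _ _ _ _ _ a _ P.A _ _ _ ha1 hW (hx.trans h5) fun V u z hz hlt =>
    (hC V u z hz (le_trans (by rw [mul_pow]; gcongr) hlt.le)).dt with h | ⟨z, hz⟩
  · have h6 := hW.parB ⟨by positivity, le_rfl⟩ h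
    have h7 : (a / (2 * m)) ^ 2 / p ≤ a / (m * p) :=
      calc _ ≤ a / (2 * m) / p := by gcongr
        _ = a / (m * p) / 2 := by field_simp
        _ ≤ _ := half_le_self (by positivity)
    rw [e1] at h6
    exact ⟨RF.mono_set h6.1 (hW.met.isOpen_bl _ _) (bl_mono h7), fun u hu w hw =>
      rmB_mono (h6.2 u hu w (bl_mono h7 hw)) (by rw [mul_pow]; linarith)⟩
  · exfalso
    obtain ⟨-, -, w, hw, hzw⟩ := born_tip hF.bas hW.sl (cbl_subset hz.mem)
      (by linarith [hE.init, hz.le])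
    have hh0 := hF.bas.hpos
    have hd0 := hF.bas.dpos
    have h6 := (hw.sc z (bl_mono ((le_div_iff₀ hd0).2 (by nlinarith)) hzw)).1
    have h7 := hz.sc _ ⟨le_rfl, (hW.sl.alive (cbl_subset hz.mem)).1⟩
    have h8 : F.h ^ 2 * (4 * (m * p) ^ 2) ≤ a ^ 2 :=
      calc _ = 4 * m ^ 2 * (F.h ^ 2 * p ^ 2) := by ring
        _ ≤ 4 * m ^ 2 * (a / (2 * m)) ^ 2 := by gcongr
        _ = _ := by field_simp; ring
    nlinarith [mul_le_mul_of_nonneg_left h7 (sq_nonneg F.h), hP.c1 0]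

end Vale.Agent.P216CP
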